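import Vale.Agent.P304.Defs

/-! Bayesian set-up, label trees. -/

namespace Vale.Agent.P304

open Finset

universe u

/-- cost of a deterministic policy -/
noncomputable def dcost {X : Type u} [MetricSpace X] {k : ℕ} (a : List X → Fin k) :
    (Fin k → X) → List X → List X → ℝ
  | _, _, [] => 0
  | s, past, r :: rest => dist (s (a (r :: past))) r +
      dcost a (Function.update s (a (r :: past)) r) (r :: past) rest

/-- a finitely supported law of request sequences of length `T`, each with an offline schedule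
that starts with all servers at `s0` -/
structure Bay (X Ω : Type u) [Fintype Ω] (k : ℕ) where
  p : Ω → ℝ
  p_pos : ∀ ω, 0 < p ω
  p_sum : ∑ ω, p ω = 1
  T : ℕ
  req : Ω → ℕ → X
  ch : Ω → ℕ → Fin k
  s0 : X

namespace Bay

variable {X Ω : Type u} [Fintype Ω] {k : ℕ} (B : Bay X Ω k)

/-- the first `t` requests, latest first -/
def hist (ω : Ω) : ℕ → List X
  | 0 => []
  | t + 1 => B.req ω t :: hist ω t

@[simp] theorem hist_length (ω : Ω) (t : ℕ) : (B.hist ω t).length = t := by
  induction t with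
  | zero => rfl
  | succ t ih => simp [hist, ih]

/-- offline configuration after `t` requests -/
def off (ω : Ω) : ℕ → Fin k → X
  | 0 => fun _ => B.s0
  | t + 1 => Function.update (off ω t) (B.ch ω t) (B.req ω t)

/-- online configuration after `t` requests -/
def conf (a : List X → Fin k) (s : Fin k → X) (ω : Ω) : ℕ → Fin k → X
  | 0 => s
  | t + 1 => Function.update (conf a s ω t) (a (B.hist ω (t + 1))) (B.req ω t)

open Classical in
/-- unnormalized conditional expectation given the history `h` -/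
noncomputable def W (h : List X) (g : Ω → ℝ) : ℝ :=
  ∑ ω with B.hist ω h.length = h, B.p ω * g ω

/-- conditional expectation given the history `h` -/
noncomputable def cE (h : List X) (g : Ω → ℝ) : ℝ := B.W h g / B.W h fun _ => 1

/-- expected total over the `T` steps -/
noncomputable def Ex (f : Ω → ℕ → ℝ) : ℝ := ∑ ω, B.p ω * ∑ t ∈ range B.T, f ω t

theorem W_one_pos (ω : Ω) (t : ℕ) : 0 < B.W (B.hist ω t) fun _ => 1 := by
  classical
  unfold W
  refine sum_pos (fun ω' _ => by simpa using B.p_pos ω') ⟨ω, by simp⟩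

theorem W_mono {h : List X} {f g : Ω → ℝ} (H : ∀ ω, B.hist ω h.length = h → f ω ≤ g ω) :
    B.W h f ≤ B.W h g := by
  classical
  unfold W
  exact sum_le_sum fun ω hω => mul_le_mul_of_nonneg_left (H ω (by simpa using hω)) (B.p_pos ω).le

theorem W_add (h : List X) (f g : Ω → ℝ) : (B.W h fun ω => f ω + g ω) = B.W h f + B.W h g := by
  simp [W, mul_add, sum_add_distrib]

theorem W_sub (h : List X) (f g : Ω → ℝ) : (B.W h fun ω => f ω - g ω) = B.W h f - B.W h g := by
  simp [W, mul_sub, sum_sub_distrib]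

theorem W_mul (h : List X) (c : ℝ) (f : Ω → ℝ) : (B.W h fun ω => c * f ω) = c * B.W h f := by
  simp [W, mul_sum, mul_left_comm]

theorem W_sum {ι : Type*} (h : List X) (s : Finset ι) (f : ι → Ω → ℝ) :
    (B.W h fun ω => ∑ i ∈ s, f i ω) = ∑ i ∈ s, B.W h (f i) := by
  simp only [W, mul_sum]
  exact sum_comm

theorem W_const (h : List X) (c : ℝ) : (B.W h fun _ => c) = c * B.W h fun _ => 1 := by
  simpa using B.W_mul h c fun _ => 1

/-- tower property -/
theorem tower (t : ℕ) (f g : List X → Ω → ℝ)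
    (H : ∀ ω, B.W (B.hist ω t) (f (B.hist ω t)) ≤ B.W (B.hist ω t) (g (B.hist ω t))) :
    ∑ ω, B.p ω * f (B.hist ω t) ω ≤ ∑ ω, B.p ω * g (B.hist ω t) ω := by
  classical
  have key : ∀ f : List X → Ω → ℝ, ∑ ω, B.p ω * f (B.hist ω t) ω =
      ∑ h ∈ univ.image (fun ω => B.hist ω t), B.W h (f h) := by
    intro f
    rw [← sum_fiberwise_of_maps_to (g := fun ω => B.hist ω t)
      (t := univ.image fun ω => B.hist ω t) fun ω _ => mem_image_of_mem _ (mem_univ ω)]
    refine sum_congr rfl fun h hh => ?_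
    obtain ⟨ω0, -, rfl⟩ := mem_image.1 hh
    unfold W
    rw [hist_length]
    refine sum_congr (by congr) fun ω hω => ?_
    rw [(mem_filter.1 hω).2]
  rw [key, key]
  refine sum_le_sum fun h hh => ?_
  obtain ⟨ω0, -, rfl⟩ := mem_image.1 hh
  exact H ω0

theorem Ex_eq (f : Ω → ℕ → ℝ) : B.Ex f = ∑ t ∈ range B.T, ∑ ω, B.p ω * f ω t := by
  simp only [Ex, mul_sum]
  exact sum_comm

theorem Ex_mono {f g : Ω → ℕ → ℝ} (H : ∀ ω t, f ω t ≤ g ω t) : B.Ex f ≤ B.Ex g :=
  sum_le_sum fun ω _ => mul_le_mul_of_nonneg_left (sum_le_sum fun t _ => H ω t) (B.p_pos ω).le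

theorem Ex_add (f g : Ω → ℕ → ℝ) : (B.Ex fun ω t => f ω t + g ω t) = B.Ex f + B.Ex g := by
  simp [Ex, mul_add, sum_add_distrib]

theorem Ex_mul (c : ℝ) (f : Ω → ℕ → ℝ) : (B.Ex fun ω t => c * f ω t) = c * B.Ex f := by
  simp [Ex, mul_sum, mul_left_comm]

theorem Ex_sum {ι : Type*} (s : Finset ι) (f : ι → Ω → ℕ → ℝ) :
    (B.Ex fun ω t => ∑ i ∈ s, f i ω t) = ∑ i ∈ s, B.Ex (f i) := by
  simp only [Ex_eq, mul_sum]
  rw [sum_comm (s := s)]
  exact sum_congr rfl fun t _ => sum_comm

theorem Ex_const (c : ℝ) : (B.Ex fun _ _ => c) = B.T * c := by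
  simp [Ex, ← sum_mul, B.p_sum]

theorem Ex_nonneg {f : Ω → ℕ → ℝ} (H : ∀ ω t, 0 ≤ f ω t) : 0 ≤ B.Ex f :=
  sum_nonneg fun ω _ => mul_nonneg (B.p_pos ω).le (sum_nonneg fun t _ => H ω t)

/-- potential argument: a nonnegative potential that starts at zero -/
theorem Ex_tele (φ : Ω → ℕ → ℝ) (h0 : ∀ ω, φ ω 0 = 0) (h : ∀ ω t, 0 ≤ φ ω t) :
    0 ≤ B.Ex fun ω t => φ ω (t + 1) - φ ω t :=
  sum_nonneg fun ω _ => mul_nonneg (B.p_pos ω).le (by rw [sum_range_sub, h0, sub_zero]; exact h _ _)

/-- offline cost -/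
noncomputable def M [MetricSpace X] : ℝ := B.Ex fun ω t => dist (B.off ω t (B.ch ω t)) (B.req ω t)

end Bay

section tree

variable {Λ : Type u} [Fintype Λ] [DecidableEq Λ]

/-- nodes of level `i`: label lists of length `i`, the deepest label first -/
def nodes : ℕ → Finset (List Λ)
  | 0 => {[]}
  | i + 1 => (univ ×ˢ nodes i).image fun p => p.1 :: p.2

theorem mem_nodes {v : List Λ} {i : ℕ} : v ∈ nodes i ↔ v.length = i := by
  induction i generalizing v with
  | zero => simp [nodes]
  | succ i ih =>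
    cases v with
    | nil => simp [nodes]
    | cons a v => simp [nodes, ih]

theorem sum_nodes_succ {M : Type*} [AddCommMonoid M] (i : ℕ) (f : List Λ → M) :
    ∑ v ∈ nodes (i + 1), f v = ∑ v ∈ nodes i, ∑ a, f (a :: v) := by
  rw [nodes, sum_image (by rintro ⟨a, v⟩ _ ⟨b, w⟩ _ h; simpa using h), sum_product_right]

/-- ancestor of level `i` -/
def anc (i : ℕ) (l : List Λ) : List Λ := l.drop (l.length - i)

/-- number of servers below the node `v`; `f j i` is the level `i` node of server `j` -/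
def cnt {k : ℕ} (f : Fin k → ℕ → List Λ) (v : List Λ) : ℕ := (univ.filter fun j => f j v.length = v).card

/-- number of servers whose level `i` node changes -/
def chg {k : ℕ} (f f' : Fin k → ℕ → List Λ) (i : ℕ) : ℕ := (univ.filter fun j => f j i ≠ f' j i).card

end tree

end Vale.Agent.P304
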