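import Mathlib

namespace Vale.Agent.P304

universe u

/-- A randomized online policy: given the requests so far (latest first, the current request
included) and its own earlier choices (latest first), a probability law for the server to move. -/
def Policy (X : Type u) (k : ℕ) : Type u := List X → List (Fin k) → PMF (Fin k)

/-- Expected movement of the policy `A` on the remaining requests, from the configuration `s`,
after the requests `past` were served by the choices `ch`. -/
noncomputable def ecost {X : Type u} [MetricSpace X] {k : ℕ} (A : Policy X k) :
    (Fin k → X) → List X → List (Fin k) → List X → ℝ
  | _, _, _, [] => 0
  | s, past, ch, r :: rest => ∑ j, (A (r :: past) ch j).toReal *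
      (dist (s j) r + ecost A (Function.update s j r) (r :: past) (j :: ch) rest)

/-- Optimal offline movement from the configuration `s`. -/
noncomputable def opt {X : Type u} [MetricSpace X] {k : ℕ} : (Fin k → X) → List X → ℝ
  | _, [] => 0
  | s, r :: rest => ⨅ j, (dist (s j) r + opt (Function.update s j r) rest)

end Vale.Agent.P304
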