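import Vale.Agent.P304.Base

/-! Averaging over radii and the lazy median. -/

namespace Vale.Agent.P304.Em

open Finset MeasureTheory

universe u

theorem int_ind {a b : ℝ} (ha : 0 ≤ a) (hab : a ≤ b) (hb : b ≤ 1) :
    ∫ U in Set.Ico (0 : ℝ) 1, (Set.Ico a b).indicator (fun _ => (1 : ℝ)) U = b - a := by
  rw [setIntegral_indicator measurableSet_Ico, Set.inter_eq_self_of_subset_right
    (Set.Ico_subset_Ico ha hb)]
  simp [hab]

theorem avg1 {ι : Type*} (s : Finset ι) (w g1 g2 Bv : ι → ℝ) (h0 : ∀ i, 0 ≤ g1 i)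
    (h12 : ∀ i, g1 i ≤ g2 i) (h1 : ∀ i, g2 i ≤ 1) :
    ∃ U, 0 ≤ U ∧ U < 1 ∧ ∑ i ∈ s, w i * ((if g1 i ≤ U ∧ U < g2 i then 1 else 0) +
      (if U < g1 i then Bv i else 0)) ≤ ∑ i ∈ s, w i * (g2 i - g1 i + g1 i * Bv i) := by
  have hi : ∀ a b : ℝ, IntegrableOn ((Set.Ico a b).indicator fun _ => (1 : ℝ))
      (Set.Ico (0 : ℝ) 1) volume := fun a b =>
    (integrableOn_const (by simp)).indicator measurableSet_Ico
  obtain ⟨U, hU, h⟩ := exists_le_setAverage (μ := volume) (s := Set.Ico (0 : ℝ) 1)
    (f := fun U => ∑ i ∈ s, w i * ((Set.Ico (g1 i) (g2 i)).indicator (fun _ => (1 : ℝ)) U +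
      Bv i * (Set.Ico 0 (g1 i)).indicator (fun _ => (1 : ℝ)) U)) (by simp) (by simp)
    (integrable_finsetSum _ fun i _ => ((hi _ _).add ((hi _ _).const_mul _)).const_mul _)
  refine ⟨U, hU.1, hU.2, ?_⟩
  rw [setAverage_eq, integral_finsetSum] at h
  swap
  · exact fun i _ => ((hi _ _).add ((hi _ _).const_mul _)).const_mul _
  simp only [Real.volume_real_Ico, sub_zero, zero_le_one, max_eq_left, inv_one, one_smul] at h
  convert h using 2 with i _ i _
  · simp [Set.indicator_apply, hU.1]
  · rw [integral_const_mul, integral_add (hi _ _) ((hi _ _).const_mul _), integral_const_mul,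
      int_ind (h0 i) (h12 i) (h1 i), int_ind le_rfl (h0 i) ((h12 i).trans (h1 i))]
    ring

/-- clamp to `[τ, 2τ]` -/
noncomputable def cl (τ d : ℝ) : ℝ := max τ (min d (2 * τ))

theorem avg_ball {ι : Type*} (s : Finset ι) (w d1 d2 : ι → ℝ) (hw : ∀ i, 0 ≤ w i) {τ : ℝ}
    (hτ : 0 < τ) : ∃ R, τ ≤ R ∧ R < 2 * τ ∧
      τ * ∑ i ∈ s, w i * (if (R < d1 i ↔ R < d2 i) then 0 else 1) ≤
        ∑ i ∈ s, w i * |cl τ (d1 i) - cl τ (d2 i)| := by
  have c1 : ∀ d, 0 ≤ (cl τ d - τ) / τ := fun d => div_nonneg (by simp [cl]) hτ.le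
  have c2 : ∀ d, (cl τ d - τ) / τ ≤ 1 := fun d => by
    rw [div_le_one hτ]
    have : cl τ d ≤ 2 * τ := max_le (by linarith) (min_le_right _ _)
    linarith
  obtain ⟨U, h0, h1, h⟩ := avg1 s w (fun i => min ((cl τ (d1 i) - τ) / τ) ((cl τ (d2 i) - τ) / τ))
    (fun i => max ((cl τ (d1 i) - τ) / τ) ((cl τ (d2 i) - τ) / τ)) (fun _ => 0)
    (fun i => le_min (c1 _) (c1 _)) (fun i => min_le_max) (fun i => max_le (c2 _) (c2 _))
  have key : ∀ d, τ * (1 + U) < d ↔ U < (cl τ d - τ) / τ := by
    intro d
    rw [lt_div_iff₀ hτ]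
    unfold cl
    have : 0 ≤ U * τ := by positivity
    have : U * τ < τ := by nlinarith
    rcases le_total d (2 * τ) with h | h
    · rw [min_eq_left h]
      rcases le_total τ d with h' | h'
      · rw [max_eq_right h']; constructor <;> intro <;> linarith
      · rw [max_eq_left h']; constructor <;> intro <;> linarith
    · rw [min_eq_right h, max_eq_right (by linarith)]; constructor <;> intro <;> linarith
  refine ⟨τ * (1 + U), by nlinarith, by nlinarith, ?_⟩
  refine le_trans (mul_le_mul_of_nonneg_left (le_trans (sum_le_sum fun i _ => ?_) h) hτ.le) ?_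
  · refine mul_le_mul_of_nonneg_left ?_ (hw i)
    simp only [key, ite_self, add_zero, min_le_iff, lt_max_iff]
    split_ifs with a b b
    · norm_num
    · exact le_rfl
    · exact le_rfl
    · exfalso
      refine a ⟨fun c => ?_, fun c => ?_⟩
      · by_contra e; exact b ⟨Or.inr (not_lt.1 e), Or.inl c⟩
      · by_contra e; exact b ⟨Or.inl (not_lt.1 e), Or.inr c⟩
  · rw [mul_sum]
    refine le_of_eq (sum_congr rfl fun i _ => ?_)
    rw [mul_zero, add_zero, max_sub_min_eq_abs', ← sub_div, abs_div, abs_of_pos hτ,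
      sub_sub_sub_cancel_right]
    field_simp

variable {X : Type u} [MetricSpace X]

open Classical in
/-- first capturing centre -/
noncomputable def first (G : ℝ → ℝ) : (ℕ → ℝ) → List X → X → Option X
  | _, [], _ => none
  | V, a :: l, x => if G (dist x a) ≤ V 0 then some a else first G (fun n => V (n + 1)) l x

theorem first_some {G : ℝ → ℝ} {l : List X} {x a : X} :
    ∀ {V : ℕ → ℝ}, first G V l x = some a → ∃ n, G (dist x a) ≤ V n := by
  induction l with
  | nil => intro V h; simp [first] at h
  | cons b l ih =>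
    intro V h
    unfold first at h
    split_ifs at h with e
    · exact ⟨0, by rwa [← Option.some.inj h]⟩
    · obtain ⟨n, hn⟩ := ih h
      exact ⟨n + 1, hn⟩

theorem first_ne {G : ℝ → ℝ} {l : List X} {x a : X} (ha : a ∈ l) :
    ∀ {V : ℕ → ℝ}, (∀ n, G (dist x a) ≤ V n) → first G V l x ≠ none := by
  induction l with
  | nil => simp at ha
  | cons b l ih =>
    intro V h
    unfold first
    split_ifs with e
    · simp
    · rcases List.mem_cons.1 ha with rfl | ha
      · exact absurd (h 0) e
      · exact ih ha fun n => h (n + 1)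

theorem first_append {G : ℝ → ℝ} {l l' : List X} {x : X} :
    ∀ {V : ℕ → ℝ}, first G V (l ++ l') x ≠ first G V l x → first G V l x = none := by
  induction l with
  | nil => intro V _; rfl
  | cons b l ih =>
    intro V h
    simp only [List.cons_append, first] at h ⊢
    split_ifs at h ⊢ with e
    · exact absurd rfl h
    · exact ih h

open Classical in
theorem avg2 {ι : Type*} (s : Finset ι) (x x' : ι → X) {G : ℝ → ℝ} {α β : ℝ} (hα : 0 ≤ α)
    (hβ : 0 ≤ β) (G0 : ∀ a, 0 ≤ G a) (G1 : ∀ a, G a ≤ 1)
    (hG : ∀ a b, a ≤ b → G a ≤ G b ∧ G b - G a ≤ (b - a) * (α * (1 - G a) + β)) (m : ℕ) :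
    ∀ (w : ι → ℝ) (l : ι → List X), (∀ i, 0 ≤ w i) → (∀ i, (l i).length ≤ m) →
      ∃ V : ℕ → ℝ, (∀ n, 0 ≤ V n ∧ V n < 1) ∧
        ∑ i ∈ s, w i * (if first G V (l i) (x i) = first G V (l i) (x' i) then 0 else 1) ≤
          ∑ i ∈ s, w i * ((α + m * β) * dist (x i) (x' i)) := by
  induction m with
  | zero =>
    intro w l hw hl
    refine ⟨fun _ => 0, fun _ => by norm_num, sum_le_sum fun i _ => ?_⟩
    have : l i = [] := List.length_eq_zero_iff.1 (Nat.le_zero.1 (hl i))
    have := hw i
    simp only [*, first, if_true]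
    gcongr
    positivity
  | succ m ih =>
    intro w l hw hl
    let g : ι → X → ℝ := fun i y => match l i with
      | [] => 0
      | a :: _ => G (dist y a)
    have g0 : ∀ i y, 0 ≤ g i y := fun i y => by simp only [g]; split <;> simp [G0]
    have g1 : ∀ i y, g i y ≤ 1 := fun i y => by simp only [g]; split <;> simp [G1]
    obtain ⟨U, h0, h1, h⟩ := avg1 s w (fun i => min (g i (x i)) (g i (x' i)))
      (fun i => max (g i (x i)) (g i (x' i))) (fun i => (α + m * β) * dist (x i) (x' i))
      (fun i => le_min (g0 _ _) (g0 _ _)) (fun i => min_le_max) (fun i => max_le (g1 _ _) (g1 _ _))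
    obtain ⟨V, hV, h'⟩ := ih (fun i => if U < min (g i (x i)) (g i (x' i)) then w i else 0)
      (fun i => (l i).tail) (fun i => by split_ifs; exacts [hw i, le_rfl])
      (fun i => by have := hl i; simp; omega)
    refine ⟨fun n => match n with | 0 => U | n + 1 => V n, fun n => ?_, ?_⟩
    · cases n; exacts [⟨h0, h1⟩, hV _]
    calc _ ≤ ∑ i ∈ s, (w i * (if min (g i (x i)) (g i (x' i)) ≤ U ∧
            U < max (g i (x i)) (g i (x' i)) then 1 else 0) +
          (if U < min (g i (x i)) (g i (x' i)) then w i else 0) *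
            (if first G V (l i).tail (x i) = first G V (l i).tail (x' i) then 0 else 1)) := by
          refine sum_le_sum fun i _ => ?_
          have := hw i
          rcases e : l i with _ | ⟨a, t⟩
          · simp only [first, if_true, mul_zero, List.tail_nil, add_zero]
            positivity
          · simp only [g, e, first, List.tail_cons, min_le_iff, lt_max_iff, lt_min_iff]
            by_cases c1 : G (dist (x i) a) ≤ U <;> by_cases c2 : G (dist (x' i) a) ≤ U
            · simp [c1, c2, c1.not_gt, c2.not_gt]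
            · simp only [c1, c2, c1.not_gt, not_le.1 c2, if_true, if_false, true_or, or_true,
                and_self, false_and, zero_mul, add_zero]
              split_ifs <;> simp [this]
            · simp only [c1, c2, c2.not_gt, not_le.1 c1, if_true, if_false, true_or, or_true,
                and_self, and_false, zero_mul, add_zero]
              split_ifs <;> simp [this]
            · simp only [c1, c2, not_le.1 c1, not_le.1 c2, if_true, if_false, or_self, false_and,
                and_self, mul_zero, zero_add]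
              exact le_of_eq (by congr)
      _ ≤ ∑ i ∈ s, w i * ((if min (g i (x i)) (g i (x' i)) ≤ U ∧
            U < max (g i (x i)) (g i (x' i)) then 1 else 0) +
          (if U < min (g i (x i)) (g i (x' i)) then (α + m * β) * dist (x i) (x' i) else 0)) := by
          rw [sum_add_distrib]
          refine (add_le_add_right h' _).trans (le_of_eq ?_)
          rw [← sum_add_distrib]
          refine sum_congr rfl fun i _ => ?_
          split_ifs <;> ring
      _ ≤ _ := by
          refine h.trans (sum_le_sum fun i _ => mul_le_mul_of_nonneg_left ?_ (hw i))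
          have hd := dist_nonneg (x := x i) (y := x' i)
          have aux : ∀ a b : ℝ, a ≤ b → b - a ≤ dist (x i) (x' i) →
              G b - G a + G a * ((α + m * β) * dist (x i) (x' i)) ≤
                (α + (m + 1 : ℕ) * β) * dist (x i) (x' i) := by
            intro a b hab hb
            have e1 := (hG a b hab).2
            have e2 := G0 a
            have e3 := G1 a
            have e4 : (b - a) * (α * (1 - G a) + β) ≤ dist (x i) (x' i) * (α * (1 - G a) + β) :=
              mul_le_mul_of_nonneg_right hb (by have := sub_nonneg.2 e3; positivity)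
            have e5 : 0 ≤ (1 - G a) * (m * β * dist (x i) (x' i)) := by
              have := sub_nonneg.2 e3; positivity
            push_cast
            nlinarith
          rcases e : l i with _ | ⟨a, t⟩
          · simp only [g, e, min_self, max_self, sub_self, zero_mul, add_zero]
            positivity
          · simp only [g, e]
            rcases le_total (dist (x i) a) (dist (x' i) a) with c | c
            · rw [min_eq_left (hG _ _ c).1, max_eq_right (hG _ _ c).1]
              exact aux _ _ c (by linarith [dist_triangle_left (x' i) a (x i), dist_triangle (x' i) (x i) a, dist_comm (x i) (x' i)])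
            · rw [min_eq_right (hG _ _ c).1, max_eq_left (hG _ _ c).1]
              exact aux _ _ c (by linarith [dist_triangle (x i) (x' i) a])

theorem pow_sub_le {u v : ℝ} (hv : 0 ≤ v) (h : v ≤ u) (n : ℕ) :
    u ^ (n + 1) - v ^ (n + 1) ≤ (n + 1) * u ^ n * (u - v) := by
  induction n with
  | zero => simp
  | succ n ih =>
    have h1 : v ^ (n + 1) ≤ u ^ (n + 1) := pow_le_pow_left₀ hv h _
    have h2 : 0 ≤ u := hv.trans h
    have h3 := mul_le_mul_of_nonneg_left ih h2
    have h4 := mul_le_mul_of_nonneg_right h1 (sub_nonneg.2 h)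
    push_cast
    calc u ^ (n + 1 + 1) - v ^ (n + 1 + 1)
        = u * (u ^ (n + 1) - v ^ (n + 1)) + v ^ (n + 1) * (u - v) := by ring
      _ ≤ u * ((n + 1) * u ^ n * (u - v)) + u ^ (n + 1) * (u - v) := add_le_add h3 h4
      _ = _ := by ring

open Classical in
theorem avg_list {ι : Type*} (s : Finset ι) (x x' : ι → X) (w : ι → ℝ) (l : ι → List X)
    (hw : ∀ i, 0 ≤ w i) {m n : ℕ} (hl : ∀ i, (l i).length ≤ m) (hm : m ≤ 2 ^ (n + 1)) {κ : ℝ}
    (hκ : 0 < κ) : ∃ F : List X → X → Option X,
      (∀ l x a, F l x = some a → dist x a ≤ 2 * κ) ∧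
      (∀ l x a, a ∈ l → dist x a ≤ κ → F l x ≠ none) ∧
      (∀ l l' x, F (l ++ l') x ≠ F l x → F l x = none) ∧
      κ * ∑ i ∈ s, w i * (if F (l i) (x i) = F (l i) (x' i) then 0 else 1) ≤
        4 * (n + 1) * ∑ i ∈ s, w i * dist (x i) (x' i) := by
  obtain ⟨u, hu⟩ : ∃ u : ℝ → ℝ, ∀ a, u a = max 0 (min 1 (2 - a / κ)) := ⟨_, fun _ => rfl⟩
  have u0 : ∀ a, 0 ≤ u a := fun a => by rw [hu]; exact le_max_left _ _
  have u1 : ∀ a, u a ≤ 1 := fun a => by rw [hu]; exact max_le zero_le_one (min_le_left _ _)
  have u2 : ∀ a b, a ≤ b → u b ≤ u a ∧ u a - u b ≤ (b - a) / κ := by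
    intro a b hab
    have : a / κ ≤ b / κ := by gcongr
    rw [hu, hu, sub_div]
    simp only [max_def, min_def]
    split_ifs <;> constructor <;> linarith
  obtain ⟨V, hV, h⟩ := avg2 s x x' (G := fun a => 1 - u a ^ (n + 1)) (α := 2 * (n + 1) / κ)
    (β := (n + 1) * (1 / 2) ^ n / κ) (by positivity) (by positivity)
    (fun a => sub_nonneg.2 (pow_le_one₀ (u0 a) (u1 a)))
    (fun a => by have := pow_nonneg (u0 a) (n + 1); linarith)
    (fun a b hab => by
      obtain ⟨e1, e2⟩ := u2 a b hab
      refine ⟨by have := pow_le_pow_left₀ (u0 b) e1 (n + 1); linarith, ?_⟩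
      have e3 := pow_sub_le (u0 b) e1 n
      have e4 : u a ^ n ≤ 2 * u a ^ (n + 1) + (1 / 2) ^ n := by
        rcases le_total (u a) (1 / 2) with c | c
        · have := pow_le_pow_left₀ (u0 a) c n
          have := pow_nonneg (u0 a) (n + 1)
          linarith
        · have := pow_nonneg (u0 a) n
          have : (0 : ℝ) ≤ (1 / 2) ^ n := by positivity
          rw [pow_succ]; nlinarith
      have e5 : (n + 1) * u a ^ n * (u a - u b) ≤
          (n + 1) * (2 * u a ^ (n + 1) + (1 / 2) ^ n) * ((b - a) / κ) := by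
        have := pow_nonneg (u0 a) (n + 1)
        have := sub_nonneg.2 e1
        gcongr
      calc _ = u a ^ (n + 1) - u b ^ (n + 1) := by ring
        _ ≤ _ := e3.trans e5
        _ = _ := by field_simp; ring) m w l hw hl
  refine ⟨first (fun a => 1 - u a ^ (n + 1)) V, fun l x a e => ?_, fun l x a ha e => ?_,
    fun l l' x => first_append, ?_⟩
  · obtain ⟨j, hj⟩ := first_some e
    by_contra c
    have : u (dist x a) = 0 := by
      rw [hu, max_eq_left]
      refine (min_le_right _ _).trans ?_
      rw [sub_nonpos, le_div_iff₀ hκ]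
      exact (not_le.1 c).le
    have h2 := (hV j).2
    simp only [this, ne_eq, Nat.add_eq_zero_iff, one_ne_zero, and_false, not_false_eq_true,
      zero_pow, sub_zero] at hj
    linarith
  · refine first_ne ha fun j => ?_
    have : u (dist x a) = 1 := by
      rw [hu, min_eq_left, max_eq_right zero_le_one]
      have : dist x a / κ ≤ 1 := (div_le_one hκ).2 e
      linarith
    simp [this, (hV j).1]
  · refine (mul_le_mul_of_nonneg_left h hκ.le).trans ?_
    rw [mul_sum, mul_sum]
    refine sum_le_sum fun i _ => ?_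
    have e1 : (m : ℝ) * (1 / 2) ^ n ≤ 2 := by
      have : (m : ℝ) ≤ 2 ^ (n + 1) := by exact_mod_cast hm
      calc (m : ℝ) * (1 / 2) ^ n ≤ 2 ^ (n + 1) * (1 / 2) ^ n := by gcongr
        _ = 2 := by rw [pow_succ, mul_right_comm, ← mul_pow]; norm_num
    have e2 := mul_nonneg (hw i) (dist_nonneg (x := x i) (y := x' i))
    calc _ = (n + 1) * (2 + m * (1 / 2) ^ n) * (w i * dist (x i) (x' i)) := by field_simp
      _ ≤ (n + 1) * (2 + 2) * (w i * dist (x i) (x' i)) := by gcongr
      _ = _ := by ring

open Classical in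
theorem exists_med [Fintype X] (μ : (X → ℝ) →ₗ[ℝ] ℝ) (hμ : ∀ f g, (∀ x, f x ≤ g x) → μ f ≤ μ g)
    (c0 : X) : ∃ c, (μ 1 = 0 → c = c0) ∧
      μ (fun x => dist x c) + μ 1 / 12 * dist c0 c ≤ μ (fun x => dist x c0) ∧
      ∀ y, y ≠ c → μ (fun x => if dist x y ≤ dist y c / 8 then 1 else 0) ≤ 2 / 3 * μ 1 := by
  by_cases h0 : μ 1 = 0
  · refine ⟨c0, fun _ => rfl, by simp, fun y _ => ?_⟩
    refine (hμ _ 1 fun x => by split_ifs <;> simp).trans (by simp [h0])
  have hm : 0 ≤ μ 1 := by simpa using hμ 0 1 (by simp)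
  obtain ⟨c, -, hc⟩ := exists_min_image univ
    (fun c => μ (fun x => dist x c) + μ 1 / 12 * dist c0 c) ⟨c0, mem_univ _⟩
  refine ⟨c, fun h => absurd h h0, by simpa using hc c0 (mem_univ _), fun y hy => ?_⟩
  have h1 := hc y (mem_univ _)
  have hε : 0 < dist y c := dist_pos.2 hy
  have h2 : μ 1 / 12 * dist c0 y ≤ μ 1 / 12 * (dist c0 c + dist y c) :=
    mul_le_mul_of_nonneg_left (dist_triangle_right _ _ _) (by positivity)
  have h3 := hμ ((fun x => dist x y) + (7 / 4 * dist y c) •
    fun x => if dist x y ≤ dist y c / 8 then 1 else 0) ((fun x => dist x c) + dist y c • 1)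
    fun x => by
      simp only [Pi.add_apply, Pi.smul_apply, smul_eq_mul, Pi.one_apply]
      split_ifs with e
      · linarith [dist_triangle_left y c x]
      · linarith [dist_triangle_right x y c]
  simp only [map_add, map_smul, smul_eq_mul] at h3
  have h4 : dist y c * (7 / 4 * μ fun x => if dist x y ≤ dist y c / 8 then 1 else 0) ≤
      dist y c * (13 / 12 * μ 1) := by linarith
  have := le_of_mul_le_mul_left h4 hε
  linarith

end Vale.Agent.P304.Em
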