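import Vale.Agent.P304.Base

/-! The dynamic embedding: interface. Labels: `none` = stay in the ball around the centre,
`some none` = uncovered, `some (some a)` = piece anchored at `a`. -/

namespace Vale.Agent.P304

open Finset

universe u

variable {X Ω : Type u} [Fintype Ω] [MetricSpace X] [Fintype X] [DecidableEq X] {k : ℕ}

def Good (D : ℕ) (v : List (Option (Option X))) : Prop :=
  some none ∉ v ∧ v.countP Option.isSome ≤ D

/-- the root and the nodes whose deepest label is not `none` -/
def Top (v : List (Option (Option X))) : Prop := v.head? ≠ some none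

open Classical in
structure Emb (B : Bay X Ω k) (D : ℕ) (K : ℝ) where
  L : ℕ
  τ : ℕ → ℝ
  lab : List X → X → ℕ → List (Option (Option X))
  cen : List X → List (Option (Option X)) → X
  τ_pos : ∀ i, 0 < τ i
  τ_succ : ∀ i, τ i = 10 * τ (i + 1)
  lab_zero : ∀ h x, lab h x 0 = []
  lab_succ : ∀ h x i, ∃ a, lab h x (i + 1) = a :: lab h x i
  lab_init : ∀ i, lab [] B.s0 i = List.replicate i none
  cen_star : ∀ h v, cen h (none :: v) = cen h v
  cen_init : cen [] [] = B.s0
  req_good : ∀ ω t, Good D (lab (B.hist ω (t + 1)) (B.req ω t) L)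
  req_cen : ∀ ω t, cen (B.hist ω (t + 1)) (lab (B.hist ω (t + 1)) (B.req ω t) L) = B.req ω t
  near : ∀ ω t j i, Good D (lab (B.hist ω t) (B.off ω t j) i) →
    dist (B.off ω t j) (cen (B.hist ω t) (lab (B.hist ω t) (B.off ω t j) i)) ≤ 2 * τ i
  cost : ∑ i ∈ range (L + 1), τ i * (B.Ex fun ω t =>
    chg (fun j => lab (B.hist ω t) (B.off ω t j))
      (fun j => lab (B.hist ω (t + 1)) (B.off ω (t + 1) j)) i) ≤ K * B.M
  shift : (B.Ex fun ω t => ∑ i ∈ range (L + 1), ∑ j,
    if Good D (lab (B.hist ω (t + 1)) (B.off ω (t + 1) j) i) ∧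
        Top (lab (B.hist ω (t + 1)) (B.off ω (t + 1) j) i) then
      dist (cen (B.hist ω t) (lab (B.hist ω (t + 1)) (B.off ω (t + 1) j) i))
        (cen (B.hist ω (t + 1)) (lab (B.hist ω (t + 1)) (B.off ω (t + 1) j) i)) else 0) ≤ K * B.M

end Vale.Agent.P304
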