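import Vale.Agent.P304.EmbA
import Vale.Agent.P304.EmbDef

/-! One level of the embedding: definitions and geometric invariants. -/

namespace Vale.Agent.P304.Em

open Finset

universe u

abbrev Lab (X : Type u) : Type u := List (Option (Option X))

structure Lev (X : Type u) where
  pre : List X → X → Lab X
  cen : List X → Lab X → X

variable {X Ω : Type u} [Fintype Ω] [MetricSpace X] [Fintype X] [DecidableEq X] {k : ℕ}
  (B : Bay X Ω k)

/-- posterior mass functional of the servers below the node `v` -/
noncomputable def mu (pre : List X → X → Lab X) (h : List X) (v : Lab X) : (X → ℝ) →ₗ[ℝ] ℝ where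
  toFun f := B.W h fun ω => ∑ j, if pre h (B.off ω h.length j) = v then f (B.off ω h.length j) else 0
  map_add' f g := by
    rw [← B.W_add]
    congr 1
    ext ω
    rw [← sum_add_distrib]
    exact sum_congr rfl fun j _ => by split_ifs <;> simp
  map_smul' c f := by
    rw [RingHom.id_apply, smul_eq_mul, ← B.W_mul]
    congr 1
    ext ω
    rw [mul_sum]
    exact sum_congr rfl fun j _ => by split_ifs <;> simp

omit [MetricSpace X] [Fintype X] in
theorem mu_apply (pre : List X → X → Lab X) (h : List X) (v : Lab X) (f : X → ℝ) :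
    mu B pre h v f = B.W h fun ω =>
      ∑ j, if pre h (B.off ω h.length j) = v then f (B.off ω h.length j) else 0 := rfl

omit [MetricSpace X] [Fintype X] in
theorem mu_le {pre pre' : List X → X → Lab X} {h : List X} {v v' : Lab X} {f g : X → ℝ}
    (hg : ∀ x, 0 ≤ g x) (H : ∀ x, pre h x = v → pre' h x = v' ∧ f x ≤ g x) :
    mu B pre h v f ≤ mu B pre' h v' g := by
  refine B.W_mono fun ω _ => sum_le_sum fun j _ => ?_
  by_cases e : pre h (B.off ω h.length j) = v
  · rw [if_pos e, if_pos (H _ e).1]; exact (H _ e).2
  · rw [if_neg e]; split_ifs; exacts [hg _, le_rfl]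

omit [MetricSpace X] [Fintype X] in
theorem mu_mono (pre : List X → X → Lab X) (h : List X) (v : Lab X) (f g : X → ℝ)
    (H : ∀ x, f x ≤ g x) : mu B pre h v f ≤ mu B pre h v g :=
  B.W_mono fun ω _ => sum_le_sum fun j _ => by split_ifs; exacts [H _, le_rfl]

omit [MetricSpace X] [Fintype X] in
theorem mu_nonneg (pre : List X → X → Lab X) (h : List X) (v : Lab X) : 0 ≤ mu B pre h v 1 := by
  simpa using mu_mono B pre h v 0 1 (by simp)

/-- the lazy median of the node `v`, started at `a` -/
noncomputable def mproc (pre : List X → X → Lab X) (v : Lab X) (a : X) : List X → X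
  | [] => a
  | r :: h => (exists_med (mu B pre (r :: h) v) (mu_mono B pre (r :: h) v) (mproc pre v a h)).choose

open Classical in
theorem mproc_spec (pre : List X → X → Lab X) (v : Lab X) (a r : X) (h : List X) :
    (mu B pre (r :: h) v 1 = 0 → mproc B pre v a (r :: h) = mproc B pre v a h) ∧
      mu B pre (r :: h) v (fun x => dist x (mproc B pre v a (r :: h))) +
        mu B pre (r :: h) v 1 / 12 * dist (mproc B pre v a h) (mproc B pre v a (r :: h)) ≤
        mu B pre (r :: h) v (fun x => dist x (mproc B pre v a h)) ∧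
      ∀ y, y ≠ mproc B pre v a (r :: h) → mu B pre (r :: h) v (fun x =>
        if dist x y ≤ dist y (mproc B pre v a (r :: h)) / 8 then 1 else 0) ≤
          2 / 3 * mu B pre (r :: h) v 1 :=
  (exists_med (mu B pre (r :: h) v) (mu_mono B pre (r :: h) v) (mproc B pre v a h)).choose_spec

theorem mproc_close (pre : List X → X → Lab X) (v : Lab X) (a : X) {ρ : ℝ} (hρ : 0 ≤ ρ)
    (H : ∀ h x, pre h x = v → dist x a ≤ ρ) (h : List X) : dist a (mproc B pre v a h) ≤ 8 * ρ := by
  induction h with
  | nil => simp [mproc, hρ]
  | cons r h ih =>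
    obtain ⟨h1, -, h3⟩ := mproc_spec B pre v a r h
    rcases (mu_nonneg B pre (r :: h) v).eq_or_lt with e | e
    · rw [h1 e.symm]; exact ih
    by_contra c
    have c := not_le.1 c
    have := h3 a (by intro e'; rw [← e', dist_self] at c; linarith)
    have h4 := mu_le B (pre := pre) (pre' := pre) (h := r :: h) (v := v) (v' := v) (f := 1)
      (g := fun x => if dist x a ≤ dist a (mproc B pre v a (r :: h)) / 8 then 1 else 0)
      (fun x => by split_ifs <;> simp)
      (fun x hx => ⟨hx, by rw [if_pos (by linarith [H _ x hx])]; simp⟩)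
    linarith

variable (D : ℕ) (P : Lev X) (R κ : ℝ) (F : List X → X → Option X)

/-- `x` lies outside the ball of its active node -/
def shell (h : List X) (x : X) : Prop := Good D (P.pre h x) ∧ R < dist x (P.cen h (P.pre h x))

open Classical in
/-- the lists of centres -/
noncomputable def lst (m : ℕ) : List X → Lab X → List X
  | [], _ => []
  | r :: h, v =>
    if v = P.pre (r :: h) r ∧ shell D P R (r :: h) r ∧ ∀ a ∈ lst m h v, κ < dist r a then
      (if (lst m h v).length < m then lst m h v ++ [r] else [r]) else lst m h v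

open Classical in
noncomputable def nl (m : ℕ) (h : List X) (x : X) : Option (Option X) :=
  if shell D P R h x then some (F (lst D P R κ m h (P.pre h x)) x) else none

noncomputable def npre (m : ℕ) (h : List X) (x : X) : Lab X := nl D P R κ F m h x :: P.pre h x

noncomputable def next (m : ℕ) : Lev X where
  pre := npre D P R κ F m
  cen h v := match v with
    | none :: v => P.cen h v
    | some (some a) :: v => mproc B (npre D P R κ F m) (some (some a) :: v) a h
    | _ => B.s0

theorem lst_length {m : ℕ} (hm : 0 < m) (h : List X) (v : Lab X) :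
    (lst D P R κ m h v).length ≤ m := by
  induction h with
  | nil => simp [lst]
  | cons r h ih =>
    unfold lst
    split_ifs with a b
    · simp; omega
    · simp; omega
    · exact ih

theorem lst_cover {m : ℕ} (hκ : 0 ≤ κ) {r : X} {h : List X} (hs : shell D P R (r :: h) r) :
    ∃ a ∈ lst D P R κ m (r :: h) (P.pre (r :: h) r), dist r a ≤ κ := by
  unfold lst
  split_ifs with a b
  · exact ⟨r, by simp, by simpa⟩
  · exact ⟨r, by simp, by simpa⟩
  · simpa [hs] using a

omit [MetricSpace X] [Fintype X] [DecidableEq X] in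
theorem good_none {v : Lab X} : Good D (none :: v) ↔ Good D v := by simp [Good]

omit [MetricSpace X] [Fintype X] [DecidableEq X] in
theorem good_bot {v : Lab X} : ¬ Good D (some none :: v) := by simp [Good]

omit [MetricSpace X] [Fintype X] [DecidableEq X] in
theorem good_tail {a : Option (Option X)} {v : Lab X} (h : Good D (a :: v)) : Good D v := by
  refine ⟨fun e => h.1 (List.mem_cons_of_mem _ e), le_trans ?_ h.2⟩
  rw [List.countP_cons]; omega

open Classical in
/-- invariants of level `i` with scale `τ` -/
structure OK (i : ℕ) (τ : ℝ) : Prop where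
  len : ∀ h x, (P.pre h x).length = i
  init : P.pre [] B.s0 = List.replicate i none
  cinit : P.cen [] (List.replicate i none) = B.s0
  near : ∀ h x, Good D (P.pre h x) → dist x (P.cen h (P.pre h x)) ≤ 2 * τ
  ball : ∀ r h v, v.length = i → Good D v → ∀ y, y ≠ P.cen (r :: h) v →
    mu B P.pre (r :: h) v (fun x => if dist x y ≤ dist y (P.cen (r :: h) v) / 8 then 1 else 0) ≤
      2 / 3 * (k * (2 / 3) ^ v.countP Option.isSome * B.W (r :: h) fun _ => 1)
  mass : ∀ r h v, v.length = i → Good D v →
    mu B P.pre (r :: h) v 1 ≤ k * (2 / 3) ^ v.countP Option.isSome * B.W (r :: h) fun _ => 1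
  req : ∀ ω t, Good D (P.pre (B.hist ω (t + 1)) (B.req ω t))
  med : ∀ r h v, v.length = i → Good D v → Top v →
    mu B P.pre (r :: h) v (fun x => dist x (P.cen (r :: h) v)) +
      mu B P.pre (r :: h) v 1 / 12 * dist (P.cen h v) (P.cen (r :: h) v) ≤
      mu B P.pre (r :: h) v (fun x => dist x (P.cen h v))
  close : ∀ h h' x, Good D (P.pre h x) → Top (P.pre h x) →
    dist x (P.cen h' (P.pre h x)) ≤ 9 * (τ / 2000)

/-- level zero -/
noncomputable def lev0 : Lev X where
  pre _ _ := []
  cen h _ := mproc B (fun _ _ => []) [] B.s0 h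

theorem ok_zero {τ : ℝ} (hτ : ∀ x y : X, dist x y ≤ τ / 2000) : OK B D (lev0 B) 0 τ := by
  have h0 : 0 ≤ τ / 2000 := dist_nonneg.trans (hτ B.s0 B.s0)
  have hm : ∀ h, mu B (fun _ _ => []) h [] 1 = k * B.W h fun _ => 1 := by
    intro h
    rw [mu_apply, ← B.W_const]
    simp
  refine ⟨fun _ _ => rfl, rfl, rfl, fun h x _ => (hτ _ _).trans (by linarith),
    fun r h v hv _ y hy => ?_, fun r h v hv _ => ?_, fun _ _ => by simp [Good, lev0],
    fun r h v hv _ _ => ?_, fun h h' x _ _ => (hτ _ _).trans (by linarith)⟩
  all_goals obtain rfl := List.length_eq_zero_iff.1 hv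
  · exact ((mproc_spec B (fun _ _ => []) [] B.s0 r h).2.2 y hy).trans (by simp [hm])
  · exact le_of_eq (by simpa [lev0] using hm (r :: h))
  · exact (mproc_spec B (fun _ _ => []) [] B.s0 r h).2.1

variable {D P R F}

theorem npre_some {m : ℕ} {h : List X} {x : X} {a : Option X} {v : Lab X}
    (e : npre D P R κ F m h x = some a :: v) :
    P.pre h x = v ∧ shell D P R h x ∧ F (lst D P R κ m h v) x = a := by
  simp only [npre, nl, List.cons.injEq] at e
  obtain ⟨e1, rfl⟩ := e
  split_ifs at e1 with c
  exact ⟨rfl, c, Option.some.inj e1⟩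

theorem npre_none {m : ℕ} {h : List X} {x : X} {v : Lab X}
    (e : npre D P R κ F m h x = none :: v) : P.pre h x = v ∧ ¬ shell D P R h x := by
  simp only [npre, nl, List.cons.injEq] at e
  obtain ⟨e1, rfl⟩ := e
  split_ifs at e1 with c
  exact ⟨rfl, c⟩

theorem OK.next {i m : ℕ} {τ τ' : ℝ} (h : OK B D P i τ') (hτ : 0 < τ) (R1 : τ ≤ R)
    (R2 : R < 2 * τ) (F1 : ∀ l x a, F l x = some a → dist x a ≤ 2 * (τ / 4000))
    (F2 : ∀ l x a, a ∈ l → dist x a ≤ τ / 4000 → F l x ≠ none)
    (hD : (k : ℝ) * (2 / 3) ^ (D + 1) < 1) :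
    OK B D (next B D P R (τ / 4000) F m) (i + 1) τ := by
  classical
  have anch : ∀ a v h x, npre D P R (τ / 4000) F m h x = some (some a) :: v →
      dist x a ≤ τ / 2000 := fun a v h x e => by
    linarith [F1 _ _ _ (npre_some _ e).2.2]
  have close : ∀ a v h h' x, npre D P R (τ / 4000) F m h x = some (some a) :: v →
      dist x (mproc B (npre D P R (τ / 4000) F m) (some (some a) :: v) a h') ≤ 9 * (τ / 2000) :=
    fun a v h h' x e => by
      linarith [dist_triangle x a (mproc B (npre D P R (τ / 4000) F m) (some (some a) :: v) a h'),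
        anch a v h x e, mproc_close B _ _ a (by positivity) (anch a v) h']
  have mass : ∀ r h' a v, v.length = i → Good D v →
      mu B (npre D P R (τ / 4000) F m) (r :: h') (some (some a) :: v) 1 ≤
        k * (2 / 3) ^ (v.countP Option.isSome + 1) * B.W (r :: h') fun _ => 1 := by
    intro r h' a v hv hg
    by_cases e : ∃ y, npre D P R (τ / 4000) F m (r :: h') y = some (some a) :: v
    · obtain ⟨y, hy⟩ := e
      obtain ⟨e1, e2, -⟩ := npre_some _ hy
      have e3 : τ < dist y (P.cen (r :: h') v) := by rw [← e1]; exact R1.trans_lt e2.2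
      have := h.ball r h' v hv hg y (by intro c; rw [← c, dist_self] at e3; linarith)
      refine (mu_le B (fun x => by split_ifs <;> simp) fun x hx => ⟨(npre_some _ hx).1, ?_⟩).trans
        (this.trans (le_of_eq (by ring)))
      rw [if_pos (by linarith [dist_triangle_right x y a, anch _ _ _ _ hx, anch _ _ _ _ hy])]
      simp
    · refine (mu_le B (pre' := P.pre) (v' := v) (g := 0) (by simp)
        fun x hx => absurd ⟨x, hx⟩ e).trans ?_
      have := (mu_nonneg B P.pre (r :: h') v).trans (h.mass r h' v hv hg)
      rw [map_zero, pow_succ]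
      linarith
  have init : npre D P R (τ / 4000) F m [] B.s0 = List.replicate (i + 1) none := by
    have : ¬ shell D P R [] B.s0 := fun c => by
      have := c.2
      rw [h.init, h.cinit, dist_self] at this
      linarith
    simp [npre, nl, this, h.init, List.replicate_succ]
  refine ⟨fun h' x => by simp [Em.next, npre, h.len], init, h.cinit, fun h' x hg => ?_,
    fun r h' v hv hg y hy => ?_, fun r h' v hv hg => ?_, fun ω t => ?_,
    fun r h' v hv hg ht => ?_, fun h' h'' x hg ht => ?_⟩
  · change dist x ((Em.next B D P R _ F m).cen h' (npre D P R _ F m h' x)) ≤ _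
    change Good D (npre D P R _ F m h' x) at hg
    rcases e : npre D P R (τ / 4000) F m h' x with _ | ⟨_ | _ | a, v⟩
    · simp [npre] at e
    · obtain ⟨rfl, e2⟩ := npre_none _ e
      rw [e, good_none] at hg
      exact (not_lt.1 fun c => e2 ⟨hg, c⟩).trans R2.le
    · exact absurd (e ▸ hg) (good_bot D)
    · exact (close a v h' h' x e).trans (by linarith)
  · rcases v with _ | ⟨_ | _ | a, v⟩
    · simp at hv
    · refine (mu_le B (fun x => by split_ifs <;> simp) fun x hx => ⟨(npre_none _ hx).1, le_rfl⟩).trans
        ((h.ball r h' v (by simpa using hv) (good_tail D hg) y hy).trans (le_of_eq (by simp)))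
    · exact absurd hg (good_bot D)
    · refine ((mproc_spec B _ _ a r h').2.2 y hy).trans ?_
      have := mass r h' a v (by simpa using hv) (good_tail D hg)
      simp only [List.countP_cons, Option.isSome_some, if_true]
      linarith
  · rcases v with _ | ⟨_ | _ | a, v⟩
    · simp at hv
    · refine (mu_le B (by simp) fun x hx => ⟨(npre_none _ hx).1, le_rfl⟩).trans
        ((h.mass r h' v (by simpa using hv) (good_tail D hg)).trans (le_of_eq (by simp)))
    · exact absurd hg (good_bot D)
    · simpa [Em.next] using mass r h' a v (by simpa using hv) (good_tail D hg)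
  · change Good D (npre D P R _ F m _ _)
    have hg := h.req ω t
    rcases e : npre D P R (τ / 4000) F m (B.hist ω (t + 1)) (B.req ω t) with _ | ⟨_ | _ | a, v⟩
    · simp [npre] at e
    · obtain ⟨rfl, -⟩ := npre_none _ e
      exact (good_none D).2 hg
    · obtain ⟨rfl, e2, e3⟩ := npre_some _ e
      obtain ⟨a, ha, ha'⟩ := lst_cover D P R (τ / 4000) (m := m) (by positivity) e2
      exact absurd e3 (F2 _ _ a ha ha')
    · obtain ⟨rfl, -, -⟩ := npre_some _ e
      have h1 := mass (B.req ω t) (B.hist ω t) a _ (h.len _ _) hg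
      have h2 : (B.W (B.hist ω (t + 1)) fun _ => 1) ≤ mu B (npre D P R (τ / 4000) F m)
          (B.hist ω (t + 1)) (some (some a) :: P.pre (B.hist ω (t + 1)) (B.req ω t)) 1 := by
        refine B.W_mono fun ω' hω' => ?_
        rw [B.hist_length] at hω' ⊢
        have e2 : B.off ω' (t + 1) (B.ch ω' t) = B.req ω t := by
          simp only [Bay.off, Function.update_self]
          exact (List.cons.inj hω').1
        refine le_trans (le_of_eq ?_) (single_le_sum (f := fun j =>
          if npre D P R (τ / 4000) F m (B.hist ω (t + 1)) (B.off ω' (t + 1) j) = _ then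
            (1 : X → ℝ) (B.off ω' (t + 1) j) else 0)
          (fun j _ => by split_ifs <;> simp) (mem_univ (B.ch ω' t)))
        simp only [e2, e, if_true, Pi.one_apply]
      have h3 := B.W_one_pos ω (t + 1)
      have h4 : 1 ≤ (k : ℝ) * (2 / 3) ^
          ((P.pre (B.hist ω (t + 1)) (B.req ω t)).countP Option.isSome + 1) :=
        le_of_mul_le_mul_right (by rw [one_mul]; exact h2.trans h1) h3
      refine ⟨by simpa using hg.1, ?_⟩
      simp only [List.countP_cons, Option.isSome_some, if_true]
      by_contra c
      have : (P.pre (B.hist ω (t + 1)) (B.req ω t)).countP Option.isSome = D := by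
        have := hg.2; omega
      rw [this] at h4
      linarith
  · rcases v with _ | ⟨_ | _ | a, v⟩
    · simp at hv
    · simp [Top] at ht
    · exact absurd hg (good_bot D)
    · exact (mproc_spec B _ _ a r h').2.1
  · change dist x ((Em.next B D P R _ F m).cen h'' (npre D P R _ F m h' x)) ≤ _
    change Good D (npre D P R _ F m h' x) at hg
    change Top (npre D P R _ F m h' x) at ht
    rcases e : npre D P R (τ / 4000) F m h' x with _ | ⟨_ | _ | a, v⟩
    · simp [npre] at e
    · simp [e, Top] at ht
    · exact absurd (e ▸ hg) (good_bot D)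
    · exact close a v h' h'' x e

end Vale.Agent.P304.Em
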