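import Vale.Agent.P304.EmbB

/-! Cost accounting for one level of the embedding. -/

namespace Vale.Agent.P304.Em

open Finset

universe u

variable {X Ω : Type u} [Fintype Ω] [MetricSpace X] [Fintype X] [DecidableEq X] {k : ℕ}
  (B : Bay X Ω k) (D : ℕ) (P : Lev X)

def nd (ω : Ω) (t : ℕ) (j : Fin k) : Lab X := P.pre (B.hist ω t) (B.off ω t j)

noncomputable def mv (ω : Ω) (t : ℕ) (j : Fin k) : ℝ := dist (B.off ω t j) (B.off ω (t + 1) j)

noncomputable def dc (ω : Ω) (t : ℕ) (j : Fin k) : ℝ :=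
  dist (B.off ω t j) (P.cen (B.hist ω t) (nd B P ω t j))

noncomputable def ch1 (ω : Ω) (t : ℕ) (j : Fin k) : ℝ :=
  if nd B P ω t j = nd B P ω (t + 1) j then 0 else 1

open Classical in
noncomputable def sh1 (ω : Ω) (t : ℕ) (j : Fin k) : ℝ :=
  if Good D (nd B P ω (t + 1) j) ∧ Top (nd B P ω (t + 1) j) then
    dist (P.cen (B.hist ω t) (nd B P ω (t + 1) j)) (P.cen (B.hist ω (t + 1)) (nd B P ω (t + 1) j))
  else 0

open Classical in
noncomputable def sm1 (ω : Ω) (t : ℕ) (j : Fin k) : ℝ :=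
  if Top (nd B P ω (t + 1) j) then mv B ω t j else 0

open Classical in
noncomputable def sg (ω : Ω) (t : ℕ) (j : Fin k) : ℝ :=
  if nd B P ω t j = nd B P ω (t + 1) j ∧ Good D (nd B P ω (t + 1) j) then 1 else 0

noncomputable def wb1 (τ : ℝ) (ω : Ω) (t : ℕ) (j : Fin k) : ℝ :=
  sg B D P ω t j * |min (dc B P ω t j) (2 * τ) - min (dc B P ω (t + 1) j) (2 * τ)|

noncomputable def cl1 (τ : ℝ) (ω : Ω) (t : ℕ) (j : Fin k) : ℝ :=
  sg B D P ω t j * |cl τ (dc B P ω t j) - cl τ (dc B P ω (t + 1) j)|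

open Classical in
noncomputable def nb1 (R : ℝ) (ω : Ω) (t : ℕ) (j : Fin k) : ℝ :=
  sg B D P ω t j * (if (R < dc B P ω t j ↔ R < dc B P ω (t + 1) j) then 0 else 1)

open Classical in
noncomputable def ss (R : ℝ) (ω : Ω) (t : ℕ) (j : Fin k) : ℝ :=
  if shell D P R (B.hist ω (t + 1)) (B.off ω (t + 1) j) then 1 else 0

noncomputable def nc1 (R κ : ℝ) (F : List X → X → Option X) (m : ℕ) (ω : Ω) (t : ℕ) (j : Fin k) :
    ℝ :=
  ss B D P R ω t j * (if F (lst D P R κ m (B.hist ω t) (nd B P ω t j)) (B.off ω t j) =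
    F (lst D P R κ m (B.hist ω t) (nd B P ω t j)) (B.off ω (t + 1) j) then 0 else 1)

/-- total over steps and servers -/
noncomputable def Tot (f : Ω → ℕ → Fin k → ℝ) : ℝ := B.Ex fun ω t => ∑ j, f ω t j

omit [MetricSpace X] [Fintype X] [DecidableEq X] in
theorem Tot_eq (f : Ω → ℕ → Fin k → ℝ) : Tot B f =
    ∑ i ∈ (univ ×ˢ range B.T ×ˢ univ : Finset (Ω × ℕ × Fin k)), B.p i.1 * f i.1 i.2.1 i.2.2 := by
  simp only [Tot, Bay.Ex, sum_product, mul_sum]

omit [MetricSpace X] [Fintype X] [DecidableEq X] in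
theorem Tot_add (f g : Ω → ℕ → Fin k → ℝ) :
    (Tot B fun ω t j => f ω t j + g ω t j) = Tot B f + Tot B g := by
  simp only [Tot_eq, mul_add, sum_add_distrib]

omit [MetricSpace X] [Fintype X] [DecidableEq X] in
theorem Tot_mul (c : ℝ) (f : Ω → ℕ → Fin k → ℝ) :
    (Tot B fun ω t j => c * f ω t j) = c * Tot B f := by
  simp only [Tot_eq, mul_sum, mul_left_comm]

omit [MetricSpace X] [Fintype X] [DecidableEq X] in
theorem Tot_mono {f g : Ω → ℕ → Fin k → ℝ} (h : ∀ ω t j, f ω t j ≤ g ω t j) :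
    Tot B f ≤ Tot B g := B.Ex_mono fun ω t => sum_le_sum fun j _ => h ω t j

omit [MetricSpace X] [Fintype X] [DecidableEq X] in
theorem Tot_nonneg {f : Ω → ℕ → Fin k → ℝ} (h : ∀ ω t j, 0 ≤ f ω t j) : 0 ≤ Tot B f :=
  B.Ex_nonneg fun ω t => sum_nonneg fun j _ => h ω t j

omit [Fintype X] [DecidableEq X] in
theorem Tot_mv : Tot B (mv B) = B.M := by
  unfold Tot Bay.M
  congr 1
  ext ω t
  rw [sum_eq_single (B.ch ω t) (fun j _ hj => by simp [mv, Bay.off, hj]) (by simp)]
  simp [mv, Bay.off]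

omit [MetricSpace X] [Fintype X] in
theorem sg_nonneg (ω : Ω) (t : ℕ) (j : Fin k) : 0 ≤ sg B D P ω t j := by
  unfold sg; split_ifs <;> norm_num

omit [MetricSpace X] [Fintype X] in
theorem ch1_nonneg (ω : Ω) (t : ℕ) (j : Fin k) : 0 ≤ ch1 B P ω t j := by
  unfold ch1; split_ifs <;> norm_num

omit [Fintype X] [DecidableEq X] in
theorem sm1_nonneg (ω : Ω) (t : ℕ) (j : Fin k) : 0 ≤ sm1 B P ω t j := by
  unfold sm1; split_ifs; exacts [dist_nonneg, le_rfl]

omit [Fintype X] [DecidableEq X] in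
theorem sh1_nonneg (ω : Ω) (t : ℕ) (j : Fin k) : 0 ≤ sh1 B D P ω t j := by
  unfold sh1; split_ifs; exacts [dist_nonneg, le_rfl]

omit [Fintype X] in
theorem nb1_nonneg (R : ℝ) (ω : Ω) (t : ℕ) (j : Fin k) : 0 ≤ nb1 B D P R ω t j :=
  mul_nonneg (sg_nonneg B D P ω t j) (by split_ifs <;> norm_num)

omit [Fintype X] in
theorem exists_R {τ : ℝ} (hτ : 0 < τ) : ∃ R, τ ≤ R ∧ R < 2 * τ ∧
    τ * Tot B (nb1 B D P R) ≤ Tot B (cl1 B D P τ) := by
  obtain ⟨R, h1, h2, h3⟩ := avg_ball (univ ×ˢ range B.T ×ˢ univ : Finset (Ω × ℕ × Fin k))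
    (fun i => B.p i.1 * sg B D P i.1 i.2.1 i.2.2) (fun i => dc B P i.1 i.2.1 i.2.2)
    (fun i => dc B P i.1 (i.2.1 + 1) i.2.2)
    (fun i => mul_nonneg (B.p_pos _).le (sg_nonneg B D P _ _ _)) hτ
  refine ⟨R, h1, h2, ?_⟩
  simpa only [Tot_eq, nb1, cl1, mul_assoc] using h3

theorem exists_F (R : ℝ) {κ : ℝ} (hκ : 0 < κ) {m n : ℕ} (h0 : 0 < m) (hm : m ≤ 2 ^ (n + 1)) :
    ∃ F : List X → X → Option X, (∀ l x a, F l x = some a → dist x a ≤ 2 * κ) ∧
      (∀ l x a, a ∈ l → dist x a ≤ κ → F l x ≠ none) ∧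
      (∀ l l' x, F (l ++ l') x ≠ F l x → F l x = none) ∧
      κ * Tot B (nc1 B D P R κ F m) ≤
        4 * (n + 1) * Tot B fun ω t j => ss B D P R ω t j * mv B ω t j := by
  obtain ⟨F, h1, h2, h3, h4⟩ := avg_list (univ ×ˢ range B.T ×ˢ univ : Finset (Ω × ℕ × Fin k))
    (fun i => B.off i.1 i.2.1 i.2.2) (fun i => B.off i.1 (i.2.1 + 1) i.2.2)
    (fun i => B.p i.1 * ss B D P R i.1 i.2.1 i.2.2)
    (fun i => lst D P R κ m (B.hist i.1 i.2.1) (nd B P i.1 i.2.1 i.2.2))
    (fun i => mul_nonneg (B.p_pos _).le (by unfold ss; split_ifs <;> norm_num))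
    (fun i => lst_length D P R κ h0 _ _) hm hκ
  refine ⟨F, h1, h2, h3, ?_⟩
  simp only [Tot_eq, nc1, mv, mul_assoc] at h4 ⊢
  convert h4

variable {D P}

theorem OK.shift {i : ℕ} {τ : ℝ} (h : OK B D P i τ) (hτ : 0 ≤ τ) : Tot B (sh1 B D P) ≤
    12 * (9 * (τ / 2000) * Tot B (ch1 B P) + Tot B (sm1 B P)) := by
  classical
  let φ : List X → List X → X → ℝ := fun h' h x =>
    if Good D (P.pre h x) ∧ Top (P.pre h x) then dist x (P.cen h' (P.pre h x)) else 0
  have φ0 : ∀ h' h x, 0 ≤ φ h' h x := fun h' h x => by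
    simp only [φ]; split_ifs; exacts [dist_nonneg, le_rfl]
  have e0 := B.Ex_tele (fun ω t => ∑ j, φ (B.hist ω t) (B.hist ω t) (B.off ω t j))
    (fun ω => sum_eq_zero fun j _ => by
      simp only [φ, Bay.hist, Bay.off, h.init, h.cinit, dist_self, ite_self])
    (fun ω t => sum_nonneg fun j _ => φ0 _ _ _)
  have e1 : (Tot B fun ω t j => φ (B.hist ω (t + 1)) (B.hist ω (t + 1)) (B.off ω (t + 1) j) +
      1 / 12 * sh1 B D P ω t j) ≤
      Tot B fun ω t j => φ (B.hist ω t) (B.hist ω (t + 1)) (B.off ω (t + 1) j) := by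
    unfold Tot
    rw [B.Ex_eq, B.Ex_eq]
    refine sum_le_sum fun t _ => ?_
    have key : ∀ (h' : List X) (g : Lab X → X → ℝ), (B.W h' fun ω => ∑ j,
        if Good D (P.pre h' (B.off ω h'.length j)) ∧ Top (P.pre h' (B.off ω h'.length j)) then
          g (P.pre h' (B.off ω h'.length j)) (B.off ω h'.length j) else 0) =
        ∑ v ∈ (nodes i).filter fun v => Good D v ∧ Top v, mu B P.pre h' v (g v) := by
      intro h' g
      simp only [mu_apply]
      rw [← B.W_sum]
      congr 1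
      ext ω
      rw [sum_comm]
      refine sum_congr rfl fun j _ => ?_
      rw [sum_ite_eq]
      simp only [mem_filter, mem_nodes, h.len, true_and]
    refine B.tower (t + 1) (fun h' ω => ∑ j, (φ h' h' (B.off ω (t + 1) j) + 1 / 12 *
      if Good D (P.pre h' (B.off ω (t + 1) j)) ∧ Top (P.pre h' (B.off ω (t + 1) j)) then
        dist (P.cen h'.tail (P.pre h' (B.off ω (t + 1) j))) (P.cen h' (P.pre h' (B.off ω (t + 1) j)))
      else 0)) (fun h' ω => ∑ j, φ h'.tail h' (B.off ω (t + 1) j)) fun ω => ?_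
    have k1 := key (B.hist ω (t + 1)) fun v x => dist x (P.cen (B.hist ω (t + 1)) v) +
      1 / 12 * dist (P.cen (B.hist ω t) v) (P.cen (B.hist ω (t + 1)) v)
    have k2 := key (B.hist ω (t + 1)) fun v x => dist x (P.cen (B.hist ω t) v)
    rw [B.hist_length] at k1 k2
    refine le_of_eq_of_le (Eq.trans ?_ k1) (le_of_le_of_eq (sum_le_sum fun v hv => ?_) k2.symm)
    · congr 1
      ext ω'
      refine sum_congr rfl fun j _ => ?_
      simp only [φ]
      split_ifs
      · rfl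
      · simp
    · simp only [mem_filter, mem_nodes] at hv
      refine le_of_eq_of_le ?_ (h.med (B.req ω t) (B.hist ω t) v hv.1 hv.2.1 hv.2.2)
      have : (fun x => dist x (P.cen (B.hist ω (t + 1)) v) +
          1 / 12 * dist (P.cen (B.hist ω t) v) (P.cen (B.hist ω (t + 1)) v)) =
          (fun x => dist x (P.cen (B.hist ω (t + 1)) v)) +
          (1 / 12 * dist (P.cen (B.hist ω t) v) (P.cen (B.hist ω (t + 1)) v)) • (1 : X → ℝ) := by
        ext x; simp
      rw [this, map_add, map_smul, smul_eq_mul]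
      simp only [Bay.hist]
      ring
  have e2 : (Tot B fun ω t j => φ (B.hist ω t) (B.hist ω (t + 1)) (B.off ω (t + 1) j)) ≤
      Tot B fun ω t j => φ (B.hist ω t) (B.hist ω t) (B.off ω t j) +
        (9 * (τ / 2000) * ch1 B P ω t j + sm1 B P ω t j) := by
    refine Tot_mono B fun ω t j => ?_
    have a0 := φ0 (B.hist ω t) (B.hist ω t) (B.off ω t j)
    have a1 := ch1_nonneg B P ω t j
    have a2 := sm1_nonneg B P ω t j
    by_cases c : Good D (nd B P ω (t + 1) j) ∧ Top (nd B P ω (t + 1) j)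
    · by_cases c' : nd B P ω t j = nd B P ω (t + 1) j
      · simp only [nd] at c c'
        simp only [φ, ch1, sm1, nd, mv, c', c, and_self, if_true, mul_zero, zero_add]
        linarith [dist_triangle_left (B.off ω (t + 1) j) (P.cen (B.hist ω t)
          (P.pre (B.hist ω (t + 1)) (B.off ω (t + 1) j))) (B.off ω t j)]
      · have := h.close _ (B.hist ω t) _ c.1 c.2
        simp only [ch1, c', if_false] at *
        simp only [nd] at c
        have e : φ (B.hist ω t) (B.hist ω (t + 1)) (B.off ω (t + 1) j) = _ := if_pos c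
        linarith
    · have e : φ (B.hist ω t) (B.hist ω (t + 1)) (B.off ω (t + 1) j) = _ := if_neg c
      rw [e]; positivity
  have e3 : (B.Ex fun ω t => ∑ j, φ (B.hist ω (t + 1)) (B.hist ω (t + 1)) (B.off ω (t + 1) j) -
      ∑ j, φ (B.hist ω t) (B.hist ω t) (B.off ω t j)) =
      (Tot B fun ω t j => φ (B.hist ω (t + 1)) (B.hist ω (t + 1)) (B.off ω (t + 1) j)) -
      Tot B fun ω t j => φ (B.hist ω t) (B.hist ω t) (B.off ω t j) := by
    simp only [Tot, Bay.Ex, sum_sub_distrib, mul_sub]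
  simp only [Tot_add, Tot_mul] at e1 e2
  linarith

omit [Fintype X] in
theorem wb_top (τ : ℝ) (ω : Ω) (t : ℕ) (j : Fin k) (h : Top (nd B P ω (t + 1) j)) :
    wb1 B D P τ ω t j ≤ sm1 B P ω t j + sh1 B D P ω t j := by
  have a1 := sh1_nonneg B D P ω t j
  have a2 := sm1_nonneg B P ω t j
  unfold wb1 sg
  split_ifs with c
  · rw [one_mul]
    refine (abs_min_sub_min_le_max _ _ _ _).trans ?_
    simp only [sub_self, abs_zero, abs_nonneg, max_eq_left, sm1, sh1, h, c.2, and_self, if_true,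
      dc, mv, c.1]
    exact dist_dist_dist_le _ _ _ _
  · rw [zero_mul]; positivity

theorem cl_min {τ τ' a b : ℝ} (hτ : 0 ≤ τ) (h : 2 * τ' ≤ τ) :
    |cl τ a - cl τ b| + |min a (2 * τ') - min b (2 * τ')| ≤ |min a (2 * τ) - min b (2 * τ)| := by
  wlog hab : a ≤ b generalizing a b
  · rw [abs_sub_comm (cl τ a), abs_sub_comm (min a _), abs_sub_comm (min a _)]
    exact this (not_le.1 hab).le
  rw [abs_sub_comm (cl τ a), abs_sub_comm (min a _), abs_sub_comm (min a _),
    abs_of_nonneg (sub_nonneg.2 (min_le_min_right _ hab)),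
    abs_of_nonneg (sub_nonneg.2 (min_le_min_right _ hab)),
    abs_of_nonneg (sub_nonneg.2 (show cl τ a ≤ cl τ b from
      max_le_max_left _ (min_le_min_right _ hab)))]
  simp only [cl, max_def, min_def]
  split_ifs <;> linarith

variable (D P) (R κ : ℝ) (F : List X → X → Option X) (m : ℕ)

theorem wb_step {τ τ' : ℝ} (hτ : 0 ≤ τ) (h : 2 * τ' ≤ τ) (ω : Ω) (t : ℕ) (j : Fin k) :
    cl1 B D P τ ω t j + wb1 B D (next B D P R κ F m) τ' ω t j ≤ wb1 B D P τ ω t j +
      (sm1 B (next B D P R κ F m) ω t j + sh1 B D (next B D P R κ F m) ω t j) := by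
  have a0 := mul_le_mul_of_nonneg_left (cl_min (a := dc B P ω t j) (b := dc B P ω (t + 1) j) hτ h)
    (sg_nonneg B D P ω t j)
  have a1 := sh1_nonneg B D (next B D P R κ F m) ω t j
  have a2 := sm1_nonneg B (next B D P R κ F m) ω t j
  have a3 := mul_nonneg (sg_nonneg B D P ω t j)
    (abs_nonneg (min (dc B P ω t j) (2 * τ') - min (dc B P ω (t + 1) j) (2 * τ')))
  by_cases c : Top (nd B (next B D P R κ F m) ω (t + 1) j)
  · have := wb_top B (D := D) τ' ω t j c
    unfold cl1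
    unfold wb1 at *
    linarith
  · suffices wb1 B D (next B D P R κ F m) τ' ω t j ≤ wb1 B D P τ' ω t j by
      unfold cl1
      unfold wb1 at *
      linarith
    have e : nd B (next B D P R κ F m) ω (t + 1) j = none :: nd B P ω (t + 1) j := by
      simp only [Top, not_not, nd, next, npre, List.head?_cons, Option.some.injEq] at c ⊢
      rw [c]
    unfold wb1
    unfold sg at *
    by_cases c' : nd B (next B D P R κ F m) ω t j = nd B (next B D P R κ F m) ω (t + 1) j ∧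
      Good D (nd B (next B D P R κ F m) ω (t + 1) j)
    · have e1 : nd B P ω t j = nd B P ω (t + 1) j := (npre_none κ (c'.1.trans e)).1
      rw [if_pos c', if_pos ⟨e1, good_tail D (e ▸ c'.2)⟩]
      simp only [dc, c'.1, e, e1]
      exact le_rfl
    · rw [if_neg c', zero_mul]; exact a3

theorem sm1_next (ω : Ω) (t : ℕ) (j : Fin k) :
    sm1 B (next B D P R κ F m) ω t j = ss B D P R ω t j * mv B ω t j := by
  simp only [sm1, ss, Top, nd, next, npre, nl, List.head?_cons]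
  split_ifs <;> simp_all

end Vale.Agent.P304.Em
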