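import Vale.Agent.P304.EmbC

/-! Insertions and flushes. -/

namespace Vale.Agent.P304.Em

open Finset

universe u

variable {X Ω : Type u} [Fintype Ω] [MetricSpace X]

/-- distance to a list, capped at `κ` -/
noncomputable def dl (κ : ℝ) : List X → X → ℝ
  | [], _ => κ
  | a :: l, x => min (dist x a) (dl κ l x)

theorem dl_nonneg {κ : ℝ} (hκ : 0 ≤ κ) (l : List X) (x : X) : 0 ≤ dl κ l x := by
  induction l with
  | nil => exact hκ
  | cons a l ih => exact le_min dist_nonneg ih

theorem dl_le (κ : ℝ) (l : List X) (x : X) : dl κ l x ≤ κ := by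
  induction l with
  | nil => exact le_rfl
  | cons a l ih => exact (min_le_right _ _).trans ih

theorem dl_lip (κ : ℝ) (l : List X) (x y : X) : dl κ l y ≤ dl κ l x + dist x y := by
  induction l with
  | nil => simp [dl]
  | cons a l ih =>
    simp only [dl]
    rw [← min_add_add_right]
    exact min_le_min (by linarith [dist_triangle_left y a x]) ih

theorem dl_append (κ : ℝ) (l l' : List X) (x : X) : dl κ (l ++ l') x ≤ dl κ l x := by
  induction l with
  | nil => exact dl_le _ _ _
  | cons a l ih => exact min_le_min le_rfl ih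

theorem dl_self (κ : ℝ) (l : List X) (x : X) : dl κ (l ++ [x]) x ≤ 0 := by
  induction l with
  | nil => simp [dl]
  | cons a l ih => exact (min_le_right _ _).trans ih

theorem dl_far {κ : ℝ} {l : List X} {x : X} (h : ∀ a ∈ l, κ < dist x a) : dl κ l x = κ := by
  induction l with
  | nil => rfl
  | cons a l ih =>
    simp only [dl]
    rw [ih fun b hb => h b (List.mem_cons_of_mem _ hb), min_eq_right (h a (by simp)).le]

variable [Fintype X] [DecidableEq X] {k : ℕ} (B : Bay X Ω k) (D : ℕ) (P : Lev X) (R κ : ℝ)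
  (F : List X → X → Option X) (m : ℕ)

def ins (ω : Ω) (t : ℕ) : Prop :=
  shell D P R (B.hist ω (t + 1)) (B.req ω t) ∧
    ∀ a ∈ lst D P R κ m (B.hist ω t) (P.pre (B.hist ω (t + 1)) (B.req ω t)), κ < dist (B.req ω t) a

def fl (ω : Ω) (t : ℕ) : Prop :=
  ins B D P R κ m ω t ∧ ¬ (lst D P R κ m (B.hist ω t) (P.pre (B.hist ω (t + 1)) (B.req ω t))).length < m

open Classical in
noncomputable def nf1 (ω : Ω) (t : ℕ) (_ : Fin k) : ℝ := if fl B D P R κ m ω t then 1 else 0

open Classical in
theorem lst_succ (ω : Ω) (t : ℕ) (v : Lab X) : lst D P R κ m (B.hist ω (t + 1)) v =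
    if v = P.pre (B.hist ω (t + 1)) (B.req ω t) ∧ ins B D P R κ m ω t then
      (if fl B D P R κ m ω t then [B.req ω t] else lst D P R κ m (B.hist ω t) v ++ [B.req ω t])
    else lst D P R κ m (B.hist ω t) v := by
  simp only [fl, ins, Bay.hist, lst]
  by_cases e : v = P.pre (B.req ω t :: B.hist ω t) (B.req ω t)
  · subst e
    split_ifs <;> simp_all
  · simp [e]

variable {D P}

omit [Fintype X] in
theorem same_shell {ω : Ω} {t : ℕ} {j : Fin k} (h : ch1 B P ω t j + nb1 B D P R ω t j < 1) :
    nd B P ω t j = nd B P ω (t + 1) j ∧ (shell D P R (B.hist ω t) (B.off ω t j) ↔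
      shell D P R (B.hist ω (t + 1)) (B.off ω (t + 1) j)) := by
  have a0 := nb1_nonneg B D P R ω t j
  have e : nd B P ω t j = nd B P ω (t + 1) j := by
    by_contra c
    simp only [ch1, c, if_false] at h
    linarith
  refine ⟨e, ?_⟩
  change (Good D (nd B P ω t j) ∧ R < dc B P ω t j) ↔
    (Good D (nd B P ω (t + 1) j) ∧ R < dc B P ω (t + 1) j)
  rw [e]
  refine and_congr_right fun g => ?_
  by_contra c
  simp [ch1, nb1, sg, e, g, c] at h

theorem OK.flush {i : ℕ} {τ : ℝ} (h : OK B D P i τ) (hR : 0 ≤ R) (hκ : 0 ≤ κ) :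
    κ * Tot B (nf1 B D P R κ (4 * k + 1)) ≤ κ * (Tot B (ch1 B P) + Tot B (nb1 B D P R)) +
      Tot B fun ω t j => ss B D P R ω t j * mv B ω t j := by
  classical
  let g : List X → X → ℝ := fun h x =>
    if shell D P R h x then dl κ (lst D P R κ (4 * k + 1) h (P.pre h x)) x else 0
  have g0 : ∀ h x, 0 ≤ g h x := fun h x => by
    simp only [g]; split_ifs; exacts [dl_nonneg hκ _ _, le_rfl]
  have e0 := B.Ex_tele (fun ω t => ∑ j, g (B.hist ω t) (B.off ω t j) +
      κ / 2 * ∑ v ∈ nodes i, ((lst D P R κ (4 * k + 1) (B.hist ω t) v).length : ℝ))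
    (fun ω => by
      have : ¬ shell D P R [] B.s0 := fun c => by
        have := c.2
        rw [h.init, h.cinit, dist_self] at this
        linarith
      simp [g, Bay.hist, Bay.off, this, lst])
    (fun ω t => add_nonneg (sum_nonneg fun j _ => g0 _ _) (by positivity))
  rw [← Tot_add, ← Tot_mul, ← Tot_mul, ← Tot_add]
  refine le_trans (le_add_of_nonneg_left e0) ?_
  unfold Tot
  rw [← B.Ex_add]
  refine B.Ex_mono fun ω t => ?_
  let c : Fin k → ℝ := fun j => ss B D P R ω t j *
    (dl κ (lst D P R κ (4 * k + 1) (B.hist ω (t + 1)) (nd B P ω (t + 1) j)) (B.off ω (t + 1) j) -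
      dl κ (lst D P R κ (4 * k + 1) (B.hist ω t) (nd B P ω (t + 1) j)) (B.off ω (t + 1) j))
  have e1 : ∀ j, g (B.hist ω (t + 1)) (B.off ω (t + 1) j) ≤ g (B.hist ω t) (B.off ω t j) +
      (κ * (ch1 B P ω t j + nb1 B D P R ω t j) + ss B D P R ω t j * mv B ω t j) + c j := by
    intro j
    have a0 := g0 (B.hist ω t) (B.off ω t j)
    have a1 := add_nonneg (ch1_nonneg B P ω t j) (nb1_nonneg B D P R ω t j)
    have a2 : 0 ≤ mv B ω t j := dist_nonneg
    by_cases s : shell D P R (B.hist ω (t + 1)) (B.off ω (t + 1) j)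
    · have e : g (B.hist ω (t + 1)) (B.off ω (t + 1) j) = dl κ (lst D P R κ (4 * k + 1)
          (B.hist ω (t + 1)) (nd B P ω (t + 1) j)) (B.off ω (t + 1) j) := if_pos s
      simp only [e, c, ss, s, if_true, one_mul]
      rcases lt_or_ge (ch1 B P ω t j + nb1 B D P R ω t j) 1 with q | q
      · obtain ⟨q1, q2⟩ := same_shell B R q
        have e' : g (B.hist ω t) (B.off ω t j) = dl κ (lst D P R κ (4 * k + 1)
          (B.hist ω t) (nd B P ω t j)) (B.off ω t j) := if_pos (q2.2 s)
        have := dl_lip κ (lst D P R κ (4 * k + 1) (B.hist ω t) (nd B P ω t j)) (B.off ω t j)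
          (B.off ω (t + 1) j)
        have := mul_nonneg hκ a1
        rw [e', ← q1]
        unfold mv
        linarith
      · have := dl_le κ (lst D P R κ (4 * k + 1) (B.hist ω t) (nd B P ω (t + 1) j))
          (B.off ω (t + 1) j)
        nlinarith
    · have e : g (B.hist ω (t + 1)) (B.off ω (t + 1) j) = 0 := if_neg s
      simp only [e, c, ss, s, if_false, zero_mul, add_zero]
      positivity
  have e2 : ∑ v ∈ nodes i, ((lst D P R κ (4 * k + 1) (B.hist ω (t + 1)) v).length : ℝ) -
      ∑ v ∈ nodes i, ((lst D P R κ (4 * k + 1) (B.hist ω t) v).length : ℝ) =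
      (lst D P R κ (4 * k + 1) (B.hist ω (t + 1)) (P.pre (B.hist ω (t + 1)) (B.req ω t))).length -
      (lst D P R κ (4 * k + 1) (B.hist ω t) (P.pre (B.hist ω (t + 1)) (B.req ω t))).length := by
    rw [← sum_sub_distrib, sum_eq_single (P.pre (B.hist ω (t + 1)) (B.req ω t))]
    · intro v _ hv
      rw [lst_succ, if_neg fun c => hv c.1, sub_self]
    · simp [mem_nodes, h.len]
  have e3 : ∑ j, c j + κ / 2 *
      ((lst D P R κ (4 * k + 1) (B.hist ω (t + 1)) (P.pre (B.hist ω (t + 1)) (B.req ω t))).length -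
      (lst D P R κ (4 * k + 1) (B.hist ω t) (P.pre (B.hist ω (t + 1)) (B.req ω t))).length : ℝ) +
      ∑ j, κ * nf1 B D P R κ (4 * k + 1) ω t j ≤ 0 := by
    by_cases q : ins B D P R κ (4 * k + 1) ω t
    · by_cases q' : fl B D P R κ (4 * k + 1) ω t
      · have b1 : ∑ j, c j ≤ ∑ _j : Fin k, κ := sum_le_sum fun j _ => by
          simp only [c, ss]
          split_ifs
          · linarith [dl_le κ (lst D P R κ (4 * k + 1) (B.hist ω (t + 1)) (nd B P ω (t + 1) j))
              (B.off ω (t + 1) j), dl_nonneg hκ (lst D P R κ (4 * k + 1) (B.hist ω t)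
              (nd B P ω (t + 1) j)) (B.off ω (t + 1) j)]
          · simpa
        have b2 : ((4 * k + 1 : ℕ) : ℝ) ≤ (lst D P R κ (4 * k + 1) (B.hist ω t)
            (P.pre (B.hist ω (t + 1)) (B.req ω t))).length := by exact_mod_cast not_lt.1 q'.2
        rw [lst_succ, if_pos ⟨rfl, q⟩, if_pos q']
        simp only [nf1, q', if_true, sum_const, card_univ, Fintype.card_fin, nsmul_eq_mul,
          List.length_singleton, Nat.cast_one, mul_one] at b1 ⊢
        push_cast at b2
        nlinarith
      · have b0 : B.off ω (t + 1) (B.ch ω t) = B.req ω t := by simp [Bay.off]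
        have b1 : ∑ j, c j ≤ -κ := by
          rw [← add_sum_erase _ _ (mem_univ (B.ch ω t))]
          have b2 : ∑ j ∈ univ.erase (B.ch ω t), c j ≤ 0 := sum_nonpos fun j _ => by
            refine mul_nonpos_of_nonneg_of_nonpos (by unfold ss; split_ifs <;> norm_num) ?_
            rw [lst_succ, if_neg q']
            split_ifs
            · exact sub_nonpos.2 (dl_append _ _ _ _)
            · simp
          have b3 : c (B.ch ω t) ≤ -κ := by
            simp only [c, ss, nd, b0, q.1, if_true, one_mul]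
            rw [lst_succ, if_pos ⟨rfl, q⟩, if_neg q', dl_far q.2]
            linarith [dl_self κ (lst D P R κ (4 * k + 1) (B.hist ω t)
              (P.pre (B.hist ω (t + 1)) (B.req ω t))) (B.req ω t)]
          linarith
        rw [lst_succ, if_pos ⟨rfl, q⟩, if_neg q']
        simp only [nf1, q', if_false, mul_zero, sum_const_zero, List.length_append,
          List.length_singleton]
        push_cast
        linarith
    · have q' : ¬ fl B D P R κ (4 * k + 1) ω t := fun e => q e.1
      simp [c, nf1, lst_succ, q, q']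
  have e4 := sum_le_sum fun j (_ : j ∈ univ) => e1 j
  simp only [sum_add_distrib] at e4 ⊢
  rw [← e2] at e3
  linarith

theorem OK.change {i : ℕ} {τ : ℝ} (h : OK B D P i τ) (hR : 0 ≤ R)
    (F3 : ∀ l l' x, F (l ++ l') x ≠ F l x → F l x = none) :
    Tot B (ch1 B (Em.next B D P R κ F m)) ≤ 2 * (Tot B (ch1 B P) + Tot B (nb1 B D P R) +
      Tot B (nc1 B D P R κ F m) + Tot B (nf1 B D P R κ m)) := by
  classical
  let b : List X → X → ℝ := fun h x => if nl D P R κ F m h x = some none then 1 else 0
  have e0 := B.Ex_tele (fun ω t => ∑ j, b (B.hist ω t) (B.off ω t j))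
    (fun ω => by
      have : ¬ shell D P R [] B.s0 := fun c => by
        have := c.2
        rw [h.init, h.cinit, dist_self] at this
        linarith
      simp [b, Bay.hist, Bay.off, this, nl])
    (fun ω t => sum_nonneg fun j _ => by simp only [b]; split_ifs <;> norm_num)
  rw [← Tot_add, ← Tot_add, ← Tot_add, ← Tot_mul]
  refine le_trans (le_add_of_nonneg_left e0) ?_
  unfold Tot
  rw [← B.Ex_add]
  refine B.Ex_mono fun ω t => ?_
  rw [← sum_sub_distrib, ← sum_add_distrib]
  refine sum_le_sum fun j _ => ?_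
  have a1 := ch1_nonneg B P ω t j
  have a2 := nb1_nonneg B D P R ω t j
  have a3 : 0 ≤ nc1 B D P R κ F m ω t j := by unfold nc1 ss; split_ifs <;> norm_num
  have a4 : 0 ≤ nf1 B D P R κ m ω t j := by unfold nf1; split_ifs <;> norm_num
  have a5 : b (B.hist ω (t + 1)) (B.off ω (t + 1) j) - b (B.hist ω t) (B.off ω t j) +
      ch1 B (Em.next B D P R κ F m) ω t j ≤ 2 := by
    simp only [b, ch1]; split_ifs <;> norm_num
  by_cases q : ch1 B P ω t j + nb1 B D P R ω t j + nc1 B D P R κ F m ω t j +
    nf1 B D P R κ m ω t j < 1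
  swap
  · linarith
  refine le_trans ?_ (by positivity : (0 : ℝ) ≤ _)
  obtain ⟨q1, q2⟩ := same_shell B R (D := D) (P := P) (ω := ω) (t := t) (j := j) (by linarith)
  have q3 : ¬ fl B D P R κ m ω t := fun c => by
    simp only [nf1, c, if_true] at q
    linarith
  simp only [nd] at q1
  by_cases s : shell D P R (B.hist ω (t + 1)) (B.off ω (t + 1) j)
  · have q4 : F (lst D P R κ m (B.hist ω t) (nd B P ω t j)) (B.off ω t j) =
        F (lst D P R κ m (B.hist ω t) (nd B P ω t j)) (B.off ω (t + 1) j) := by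
      by_contra c
      simp only [nc1, ss, s, c, if_true, if_false, mul_one] at q
      linarith
    simp only [nd, q1] at q4
    simp only [b, ch1, nd, Em.next, npre, nl, s, q2.2 s, if_true, q1, q4, List.cons.injEq,
      Option.some.injEq, and_true]
    by_cases q5 : F (lst D P R κ m (B.hist ω (t + 1)) (P.pre (B.hist ω (t + 1)) (B.off ω (t + 1) j)))
      (B.off ω (t + 1) j) = F (lst D P R κ m (B.hist ω t)
        (P.pre (B.hist ω (t + 1)) (B.off ω (t + 1) j))) (B.off ω (t + 1) j)
    · simp [q5]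
    · have q6 : F (lst D P R κ m (B.hist ω t) (P.pre (B.hist ω (t + 1)) (B.off ω (t + 1) j)))
          (B.off ω (t + 1) j) = none := by
        rw [lst_succ, if_neg q3] at q5
        split_ifs at q5
        · exact F3 _ _ _ q5
        · exact absurd rfl q5
      rw [q6] at q5
      simp [q6, q5, Ne.symm q5]
  · simp [b, ch1, nd, Em.next, npre, nl, s, mt q2.1 s, q1]

end Vale.Agent.P304.Em
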