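import Vale.Agent.P304.EmbD

namespace Vale.Agent.P304

open Finset

universe u

variable {X Ω : Type u} [Fintype Ω] [MetricSpace X] [Fintype X] [DecidableEq X] {k : ℕ}

theorem Em.step (B : Bay X Ω k) (D : ℕ) (hD : (k : ℝ) * (2 / 3) ^ (D + 1) < 1) (P : Em.Lev X)
    {τ : ℝ} (hτ : 0 < τ) : ∃ P' : Em.Lev X,
      (∀ h x, ∃ a, P'.pre h x = a :: P.pre h x ∧ (¬ Good D (P.pre h x) → a = none)) ∧
      (∀ h v, P'.cen h (none :: v) = P.cen h v) ∧
      ∀ i τ', Em.OK B D P i τ' → Em.OK B D P' (i + 1) τ ∧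
        τ * Em.Tot B (Em.ch1 B P') + 4 * Em.Tot B (Em.wb1 B D P' (τ / 10)) ≤
          4 * τ * Em.Tot B (Em.ch1 B P) + 4 * Em.Tot B (Em.wb1 B D P τ) +
          104004 * (Nat.log 2 k + 1) * Em.Tot B (Em.sm1 B P') + 4 * Em.Tot B (Em.sh1 B D P') := by
  obtain ⟨R, R1, R2, R3⟩ := Em.exists_R B D P hτ
  obtain ⟨F, F1, F2, F3, F4⟩ := Em.exists_F B D P R (κ := τ / 4000) (m := 4 * k + 1)
    (n := Nat.log 2 k + 2) (by positivity) (by omega) (by
      have := Nat.lt_pow_succ_log_self (b := 2) (by norm_num) k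
      rw [show Nat.log 2 k + 2 + 1 = (Nat.log 2 k).succ + 2 by omega, pow_add]
      omega)
  refine ⟨Em.next B D P R (τ / 4000) F (4 * k + 1), fun h x => ⟨_, rfl, fun c => ?_⟩,
    fun _ _ => rfl, fun i τ' h => ⟨h.next B hτ R1 R2 F1 F2 hD, ?_⟩⟩
  · exact if_neg fun e => c e.1
  have e1 := h.flush B R (τ / 4000) (by linarith) (by positivity)
  have e2 := mul_le_mul_of_nonneg_left (h.change B R (τ / 4000) F (4 * k + 1) (by linarith) F3) hτ.le
  have e3 := Em.Tot_mono B (Em.wb_step B D P R (τ / 4000) F (4 * k + 1) (τ' := τ / 10) hτ.le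
    (by linarith))
  have e4 : (fun ω t j => Em.ss B D P R ω t j * Em.mv B ω t j) =
      Em.sm1 B (Em.next B D P R (τ / 4000) F (4 * k + 1)) := by
    ext ω t j; rw [Em.sm1_next]
  rw [e4] at e1 F4
  simp only [Em.Tot_add] at e3
  have e5 := Em.Tot_nonneg B (Em.sm1_nonneg B (Em.next B D P R (τ / 4000) F (4 * k + 1)))
  have e6 := mul_nonneg (Nat.cast_nonneg (α := ℝ) (Nat.log 2 k)) e5
  push_cast at F4
  linarith

theorem Bay.emb {X Ω : Type u} [Fintype Ω] [MetricSpace X] [Fintype X] [DecidableEq X] {k : ℕ}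
    (B : Bay X Ω k) (hk : 0 < k) (D : ℕ) (hD : (k : ℝ) * (2 / 3) ^ (D + 1) < 1) :
    Nonempty (Emb B D (10 ^ 7 * (D + 1) * (Nat.log 2 k + 1))) := by
  classical
  obtain ⟨τ0, h0, h1⟩ : ∃ τ0 : ℝ, 0 < τ0 ∧ ∀ x y : X, dist x y ≤ τ0 / 2000 := by
    refine ⟨2000 * (∑ p : X × X, dist p.1 p.2 + 1), by positivity, fun x y => ?_⟩
    have := single_le_sum (f := fun p : X × X => dist p.1 p.2) (fun _ _ => dist_nonneg)
      (mem_univ (x, y))
    linarith
  let τ : ℕ → ℝ := fun i => τ0 * (1 / 10) ^ i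
  have τp : ∀ i, 0 < τ i := fun i => by positivity
  have τs : ∀ i, τ (i + 1) = τ i / 10 := fun i => by simp only [τ, pow_succ]; ring
  obtain ⟨L, hL⟩ : ∃ L, ∀ x y : X, dist x y ≤ 2 * τ L → x = y := by
    have : ∀ p : X × X, ∀ᶠ L in Filter.atTop, dist p.1 p.2 ≤ 2 * τ L → p.1 = p.2 := by
      intro p
      by_cases e : p.1 = p.2
      · exact Filter.Eventually.of_forall fun _ _ => e
      · have := ((tendsto_pow_atTop_nhds_zero_of_lt_one (r := (1 / 10 : ℝ)) (by norm_num)
          (by norm_num)).const_mul τ0).const_mul 2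
        simp only [mul_zero] at this
        filter_upwards [this.eventually (gt_mem_nhds (dist_pos.2 e))] with L h h'
        exact absurd h' (not_le.2 h)
    obtain ⟨L, hL⟩ := (Filter.eventually_all.2 this).exists
    exact ⟨L, fun x y => hL (x, y)⟩
  choose st s1 s2 s3 using fun (P : Em.Lev X) (i : ℕ) => Em.step B D hD P (τp (i + 1))
  obtain ⟨lev, l0, l1⟩ : ∃ lev : ℕ → Em.Lev X, lev 0 = Em.lev0 B ∧ ∀ i, lev (i + 1) = st (lev i) i :=
    ⟨fun i => Nat.rec (Em.lev0 B) (fun i P => st P i) i, rfl, fun _ => rfl⟩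
  have ok : ∀ i, Em.OK B D (lev i) i (τ i) := by
    intro i
    induction i with
    | zero => rw [l0]; exact Em.ok_zero B D (by simpa [τ] using h1)
    | succ i ih => rw [l1]; exact (s3 _ i i _ ih).1
  have cnt1 : ∀ h x i, ((lev i).pre h x).countP Option.isSome ≤ D + 1 ∧
      ∑ i' ∈ range (i + 1), (if Top ((lev i').pre h x) then (1 : ℝ) else 0) =
        ((lev i).pre h x).countP Option.isSome + 1 := by
    intro h x i
    induction i with
    | zero => simp [l0, Em.lev0, Top]
    | succ i ih =>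
      rw [sum_range_succ, ih.2, l1]
      obtain ⟨a, e1, e2⟩ := s1 (lev i) i h x
      rw [e1]
      cases a with
      | none => simpa [Top] using ih.1
      | some a =>
        have : Good D ((lev i).pre h x) := by by_contra c; simpa using e2 c
        simpa [Top] using this.2
  have hM : 0 ≤ B.M := B.Ex_nonneg fun _ _ => dist_nonneg
  have Sm : ∑ i ∈ range (L + 1), Em.Tot B (Em.sm1 B (lev i)) ≤ 2 * (D + 1) * B.M := by
    rw [← Em.Tot_mv, ← Em.Tot_mul]
    unfold Em.Tot
    rw [← B.Ex_sum]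
    refine B.Ex_mono fun ω t => ?_
    rw [sum_comm]
    refine sum_le_sum fun j _ => ?_
    obtain ⟨c1, c2⟩ := cnt1 (B.hist ω (t + 1)) (B.off ω (t + 1) j) L
    have c3 : ((((lev L).pre (B.hist ω (t + 1)) (B.off ω (t + 1) j)).countP Option.isSome : ℕ) : ℝ) ≤
      D + 1 := by exact_mod_cast c1
    calc _ = (∑ i' ∈ range (L + 1), (if Top ((lev i').pre (B.hist ω (t + 1)) (B.off ω (t + 1) j))
          then (1 : ℝ) else 0)) * Em.mv B ω t j := by
          rw [sum_mul]
          exact sum_congr rfl fun i _ => by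
            unfold Em.sm1
            rw [boole_mul]
            congr
      _ ≤ _ := by
          rw [c2]
          exact mul_le_mul_of_nonneg_right (by linarith [Nat.cast_nonneg (α := ℝ) D]) dist_nonneg
  have Sh : ∑ i ∈ range (L + 1), Em.Tot B (Em.sh1 B D (lev i)) ≤
      108 / 2000 * ∑ i ∈ range (L + 1), τ i * Em.Tot B (Em.ch1 B (lev i)) +
      12 * ∑ i ∈ range (L + 1), Em.Tot B (Em.sm1 B (lev i)) := by
    rw [mul_sum, mul_sum, ← sum_add_distrib]
    exact sum_le_sum fun i _ => ((ok i).shift B (τp i).le).trans (le_of_eq (by ring))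
  have lg : (0 : ℝ) ≤ Nat.log 2 k := Nat.cast_nonneg _
  have S1 : ∀ n, ∑ i ∈ range (n + 1), τ i * Em.Tot B (Em.ch1 B (lev i)) +
      4 * Em.Tot B (Em.wb1 B D (lev n) (τ (n + 1))) ≤
      2 / 5 * ∑ i ∈ range n, τ i * Em.Tot B (Em.ch1 B (lev i)) +
      104004 * (Nat.log 2 k + 1) * ∑ i ∈ range (n + 1), Em.Tot B (Em.sm1 B (lev i)) +
      4 * ∑ i ∈ range (n + 1), Em.Tot B (Em.sh1 B D (lev i)) := by
    intro n
    induction n with
    | zero =>
      have e1 : Em.Tot B (Em.ch1 B (lev 0)) = 0 := by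
        simp [Em.Tot_eq, Em.ch1, Em.nd, l0, Em.lev0]
      have e2 := Em.Tot_mono B fun ω t j => Em.wb_top B (D := D) (P := lev 0) (τ 1) ω t j
        (by simp [Em.nd, l0, Em.lev0, Top])
      have e3 := Em.Tot_nonneg B (Em.sm1_nonneg B (lev 0))
      have e4 := mul_nonneg lg e3
      rw [Em.Tot_add] at e2
      simp only [zero_add, range_one, sum_singleton, e1, range_zero, sum_empty]
      linarith
    | succ n ih =>
      have e := (s3 _ n n _ (ok n)).2
      rw [← l1, ← τs] at e
      rw [sum_range_succ _ (n + 1), sum_range_succ _ (n + 1), sum_range_succ _ (n + 1)]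
      rw [sum_range_succ _ n] at ih ⊢
      rw [τs n] at e ih ⊢
      linarith
  have S2 : ∑ i ∈ range (L + 1), τ i * Em.Tot B (Em.ch1 B (lev i)) ≤
      10 ^ 6 * (D + 1) * (Nat.log 2 k + 1) * B.M := by
    have e1 := S1 L
    have e2 : 0 ≤ Em.Tot B (Em.wb1 B D (lev L) (τ (L + 1))) := Em.Tot_nonneg B fun ω t j =>
      mul_nonneg (Em.sg_nonneg B D _ ω t j) (abs_nonneg _)
    have e3 := mul_nonneg (τp L).le (Em.Tot_nonneg B (Em.ch1_nonneg B (lev L)))
    have e4 := mul_le_mul_of_nonneg_left Sm lg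
    have e5 : 0 ≤ (D + 1 : ℝ) * B.M := by positivity
    have e6 := mul_nonneg lg e5
    have e7 := sum_range_succ (fun i => τ i * Em.Tot B (Em.ch1 B (lev i))) L
    linarith
  have e5 : 0 ≤ (D + 1 : ℝ) * B.M := by positivity
  have e6 := mul_nonneg lg e5
  refine ⟨{ L := L, τ := τ, lab := fun h x i => (lev i).pre h x
            cen := fun h v => (lev v.length).cen h v, τ_pos := τp
            τ_succ := fun i => by rw [τs]; ring
            lab_zero := fun h x => by simp [l0, Em.lev0]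
            lab_succ := fun h x i => by
              obtain ⟨a, e, -⟩ := s1 (lev i) i h x
              exact ⟨a, by rw [l1, e]⟩
            lab_init := fun i => (ok i).init
            cen_star := fun h v => by rw [List.length_cons, l1, s2]
            cen_init := (ok 0).cinit
            req_good := (ok L).req
            req_cen := fun ω t => ?_
            near := fun ω t j i hg => ?_
            cost := ?_
            shift := ?_ }⟩
  · rw [(ok L).len]
    exact (hL _ _ ((ok L).near _ _ ((ok L).req ω t))).symm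
  · rw [(ok i).len]
    exact (ok i).near _ _ hg
  · refine le_trans (le_of_eq (sum_congr rfl fun i _ => ?_)) (S2.trans (by nlinarith))
    congr 2
    ext ω t
    simp only [chg, Em.ch1, Em.nd, card_filter, ite_not, Nat.cast_sum, Nat.cast_ite,
      Nat.cast_zero, Nat.cast_one]
    exact sum_congr rfl fun _ _ => by congr
  · rw [B.Ex_sum]
    refine le_trans (le_of_eq (sum_congr rfl fun i _ => ?_)) (Sh.trans (by nlinarith))
    simp only [Em.Tot, Em.sh1, Em.nd, (ok i).len]
    congr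

end Vale.Agent.P304
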