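import Vale.Agent.P304.Base

/-! Elementary lemmas for the fractional allocation. -/

namespace Vale.Agent.P304.Fr

open Finset

universe u

theorem exists_sig : ∃ s : ℝ → ℝ, (∀ x (n : ℤ), min (n + 1 : ℝ) (2 * x - n - 1) ≤ s x) ∧
    ∀ x, ∃ n : ℤ, s x = min (n + 1 : ℝ) (2 * x - n - 1) := by
  refine ⟨fun x => max ⌊x⌋ (2 * x - ⌊x⌋ - 1), fun x n => ?_, fun x => ?_⟩
  · rcases le_or_gt ⌊x⌋ n with h | h
    · have : (⌊x⌋ : ℝ) ≤ n := by exact_mod_cast h
      exact (min_le_right _ _).trans (le_max_of_le_right (by linarith))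
    · have : (n + 1 : ℝ) ≤ ⌊x⌋ := by exact_mod_cast h
      exact (min_le_left _ _).trans (le_max_of_le_left this)
  · have h1 := Int.floor_le x
    have h2 := Int.lt_floor_add_one x
    rcases le_total (⌊x⌋ : ℝ) (2 * x - ⌊x⌋ - 1) with h | h
    · exact ⟨⌊x⌋, (max_eq_right h).trans (min_eq_right (by linarith)).symm⟩
    · refine ⟨⌊x⌋ - 1, ?_⟩
      push_cast
      rw [max_eq_left h, min_eq_left (by linarith)]
      ring

theorem exists_F (Q k : ℕ) : ∃ F : ℝ → ℕ, Monotone F ∧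
    (∀ x y, 0 ≤ x → 0 ≤ y → F x + F y ≤ F (x + y)) ∧ (∀ x, 0 ≤ x → (F x : ℝ) ≤ Q * x) ∧
    (∀ x, 1 ≤ x → Q ≤ F x) ∧ (∀ x : ℝ, x ≤ k + 1 / 2 → F x ≤ Q * k) ∧
    ∀ x y, 0 ≤ x → 0 ≤ y → |(F x : ℝ) - F y| ≤ 2 * Q * |x - y| + 1 := by
  obtain ⟨s, hl, he⟩ := exists_sig
  have hQ : (0 : ℝ) ≤ Q := Nat.cast_nonneg Q
  have s0 : ∀ x, 0 ≤ x → 0 ≤ s x := fun x hx =>
    le_trans (le_min (by simp) (by push_cast; linarith)) (hl x (-1))
  have lip : ∀ x y e, 0 ≤ e → x ≤ y + e → s x ≤ s y + 2 * e := by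
    intro x y e h0 h
    obtain ⟨n, hn⟩ := he x
    have := hl y n
    rw [hn]
    rcases min_cases (n + 1 : ℝ) (2 * y - n - 1) with h1 | h1
    · linarith [min_le_left (n + 1 : ℝ) (2 * x - n - 1), h1.1]
    · linarith [min_le_right (n + 1 : ℝ) (2 * x - n - 1), h1.1]
  have lip' : ∀ x y, 0 ≤ x → (⌊Q * s x⌋₊ : ℝ) - ⌊Q * s y⌋₊ ≤ 2 * Q * |x - y| + 1 := by
    intro x y hx
    have h1 := Nat.floor_le (mul_nonneg hQ (s0 x hx))
    have h2 := Nat.lt_floor_add_one (Q * s y)
    have h3 := mul_le_mul_of_nonneg_left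
      (lip x y _ (abs_nonneg (x - y)) (by linarith [le_abs_self (x - y)])) hQ
    linarith
  refine ⟨fun x => ⌊Q * s x⌋₊, fun x y h => Nat.floor_mono (mul_le_mul_of_nonneg_left ?_ hQ),
    fun x y hx hy => Nat.le_floor ?_, fun x hx => ?_, fun x hx => Nat.le_floor ?_,
    fun x hx => Nat.floor_le_of_le ?_, fun x y hx hy => abs_sub_le_iff.2 ⟨lip' x y hx, ?_⟩⟩
  · simpa using lip x y 0 le_rfl (by simpa using h)
  · have h1 := Nat.floor_le (mul_nonneg hQ (s0 x hx))
    have h2 := Nat.floor_le (mul_nonneg hQ (s0 y hy))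
    obtain ⟨n, hn⟩ := he x
    obtain ⟨m, hm⟩ := he y
    have h3 : s x + s y ≤ s (x + y) := by
      refine le_trans (le_min ?_ ?_) (hl (x + y) (n + m + 1))
      · push_cast
        linarith [hn ▸ min_le_left (n + 1 : ℝ) (2 * x - n - 1),
          hm ▸ min_le_left (m + 1 : ℝ) (2 * y - m - 1)]
      · push_cast
        linarith [hn ▸ min_le_right (n + 1 : ℝ) (2 * x - n - 1),
          hm ▸ min_le_right (m + 1 : ℝ) (2 * y - m - 1)]
    have := mul_le_mul_of_nonneg_left h3 hQ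
    push_cast
    linarith
  · refine (Nat.floor_le (mul_nonneg hQ (s0 x hx))).trans (mul_le_mul_of_nonneg_left ?_ hQ)
    obtain ⟨n, hn⟩ := he x
    linarith [hn ▸ min_le_left (n + 1 : ℝ) (2 * x - n - 1),
      hn ▸ min_le_right (n + 1 : ℝ) (2 * x - n - 1)]
  · refine le_mul_of_one_le_right hQ (le_trans (le_min (by simp) ?_) (hl x 0))
    push_cast; linarith
  · push_cast
    refine mul_le_mul_of_nonneg_left ?_ hQ
    obtain ⟨n, hn⟩ := he x
    rw [hn]
    rcases le_or_gt (k : ℤ) n with h | h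
    · have : (k : ℝ) ≤ n := by exact_mod_cast h
      exact (min_le_right _ _).trans (by linarith)
    · exact (min_le_left _ _).trans (by exact_mod_cast h)
  · rw [abs_sub_comm]; exact lip' y x hy

theorem sum_F_le {ι : Type*} {F : ℝ → ℕ} (h : ∀ x y, 0 ≤ x → 0 ≤ y → F x + F y ≤ F (x + y))
    (s : Finset ι) (x : ι → ℝ) (hx : ∀ i, 0 ≤ x i) : ∑ i ∈ s, F (x i) ≤ F (∑ i ∈ s, x i) := by
  classical
  induction s using Finset.induction_on with
  | empty => simp
  | insert a s ha ih =>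
    rw [sum_insert ha, sum_insert ha]
    exact (Nat.add_le_add_left ih _).trans (h _ _ (hx a) (sum_nonneg fun i _ => hx i))

noncomputable def ind (N j : ℕ) : ℝ := if N ≤ j then 1 else 0

theorem ind_nonneg (N j : ℕ) : 0 ≤ ind N j := by unfold ind; split_ifs <;> norm_num

theorem sum_ind (N m : ℕ) : ∑ i ∈ range m, ind N i = (m - N : ℕ) := by
  induction m with
  | zero => simp
  | succ m ih =>
    rw [sum_range_succ, ih, ind]
    split_ifs with h
    · rw [Nat.succ_sub h]; push_cast; rfl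
    · rw [Nat.sub_eq_zero_of_le (by omega), Nat.sub_eq_zero_of_le (by omega)]; simp

theorem card_sub_le (N : ℕ) (S : Finset ℕ) : (S.card : ℝ) - N ≤ ∑ j ∈ S, ind N j := by
  have h1 := card_filter_add_card_filter_not (s := S) (fun j => N ≤ j)
  have h2 : (S.filter fun j => ¬ N ≤ j).card ≤ (range N).card :=
    card_le_card fun j hj => mem_range.2 (not_le.1 (mem_filter.1 hj).2)
  rw [card_range] at h2
  simp only [ind, sum_boole]
  have : S.card ≤ (S.filter fun j => N ≤ j).card + N := by omega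
  have : (S.card : ℝ) ≤ (S.filter fun j => N ≤ j).card + N := by exact_mod_cast this
  linarith

theorem sum_ind_le {ι : Type*} [Fintype ι] (N : ι → ℕ) (S : ι → Finset ℕ) :
    ∑ i ∈ range (∑ a, (S a).card), ind (∑ a, N a) i ≤ ∑ a, ∑ j ∈ S a, ind (N a) j := by
  rw [sum_ind]
  rcases le_total (∑ a, (S a).card) (∑ a, N a) with h | h
  · rw [Nat.sub_eq_zero_of_le h, Nat.cast_zero]
    exact sum_nonneg fun a _ => sum_nonneg fun j _ => ind_nonneg _ _
  · rw [Nat.cast_sub h]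
    push_cast
    rw [← sum_sub_distrib]
    exact sum_le_sum fun a _ => card_sub_le _ _

theorem sum_abs_ind (N N' k : ℕ) : ∑ j ∈ range k, |ind N' j - ind N j| ≤ |(N' : ℝ) - N| := by
  wlog h : N ≤ N' generalizing N N'
  · simpa only [abs_sub_comm] using this N' N (le_of_not_ge h)
  have h1 : ∀ j, |ind N' j - ind N j| = ind N j - ind N' j := by
    intro j
    rw [abs_sub_comm, abs_of_nonneg]
    unfold ind
    split_ifs <;> first | omega | norm_num
  have h2 : k - N + N ≤ k - N' + N' := by omega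
  have h3 : ((k - N : ℕ) : ℝ) + N ≤ (k - N' : ℕ) + N' := by exact_mod_cast h2
  simp only [h1, sum_sub_distrib, sum_ind]
  linarith [le_abs_self ((N' : ℝ) - N)]

variable {Λ : Type u} [Fintype Λ] [DecidableEq Λ] {k : ℕ}

omit [Fintype Λ] in
theorem cnt_le (f : Fin k → ℕ → List Λ) (v : List Λ) : cnt f v ≤ k :=
  (card_filter_le _ _).trans (by simp)

theorem cnt_eq (f : Fin k → ℕ → List Λ) (hf : ∀ j i, ∃ a, f j (i + 1) = a :: f j i) (v : List Λ) :
    cnt f v = ∑ a, cnt f (a :: v) := by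
  simp only [cnt, card_filter]
  rw [sum_comm]
  refine sum_congr rfl fun j _ => ?_
  obtain ⟨a, ha⟩ := hf j v.length
  by_cases h : f j v.length = v <;> simp [ha, h]

theorem sum_cnt_le (f f' : Fin k → ℕ → List Λ) (n : ℕ) :
    ∑ v ∈ nodes n, |(cnt f' v : ℝ) - cnt f v| ≤ 2 * chg f f' n := by
  have h1 : ∀ v ∈ nodes (Λ := Λ) n, |(cnt f' v : ℝ) - cnt f v| ≤
      ∑ j, |(if f' j n = v then (1 : ℝ) else 0) - if f j n = v then 1 else 0| := by
    intro v hv
    simp only [cnt, card_filter, mem_nodes.1 hv]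
    push_cast
    rw [← sum_sub_distrib]
    exact abs_sum_le_sum_abs _ _
  refine (sum_le_sum h1).trans ?_
  rw [sum_comm, chg, card_filter]
  push_cast
  rw [mul_sum]
  refine sum_le_sum fun j _ => ?_
  by_cases h : f j n = f' j n
  · simp [h]
  · have h2 : ∀ u : List Λ, ∑ v ∈ nodes n, (if u = v then (1 : ℝ) else 0) ≤ 1 := by
      intro u
      rw [sum_ite_eq]
      split_ifs <;> norm_num
    calc _ ≤ ∑ v ∈ nodes n, ((if f' j n = v then (1 : ℝ) else 0) + if f j n = v then 1 else 0) :=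
          sum_le_sum fun v _ => by split_ifs <;> norm_num
      _ ≤ _ := by
          rw [sum_add_distrib, if_pos h]
          linarith [h2 (f j n), h2 (f' j n)]

/-- the allocation built from the values at the labelled nodes -/
def Zf {Γ : Type u} [Fintype Γ] (top : ℕ) (G : Γ → List (Option Γ) → ℕ) : List (Option Γ) → ℕ
  | [] => top
  | some a :: v => G a v
  | none :: v => Zf top G v - ∑ a, G a v

section cond

variable {X Ω : Type u} [Fintype Ω] (B : Bay X Ω k)

theorem cE_mono {h : List X} {f g : Ω → ℝ} (H : ∀ ω, B.hist ω h.length = h → f ω ≤ g ω) :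
    B.cE h f ≤ B.cE h g := by
  refine div_le_div_of_nonneg_right (B.W_mono H) ?_
  have := B.W_mono (h := h) (f := fun _ => 0) (g := fun _ => 1) fun _ _ => zero_le_one
  rwa [B.W_const, zero_mul] at this

theorem cE_sum {ι : Type*} (h : List X) (s : Finset ι) (f : ι → Ω → ℝ) :
    (B.cE h fun ω => ∑ i ∈ s, f i ω) = ∑ i ∈ s, B.cE h (f i) := by
  simp only [Bay.cE, B.W_sum, sum_div]

theorem cE_add (h : List X) (f g : Ω → ℝ) :
    (B.cE h fun ω => f ω + g ω) = B.cE h f + B.cE h g := by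
  simp only [Bay.cE, B.W_add, add_div]

theorem cE_const (ω : Ω) (t : ℕ) (c : ℝ) : (B.cE (B.hist ω t) fun _ => c) = c := by
  rw [Bay.cE, B.W_const, mul_div_cancel_right₀ _ (B.W_one_pos ω t).ne']

/-- posterior probability that at most `j` servers are counted -/
noncomputable def yy (h : List X) (N : Ω → ℕ) (j : ℕ) : ℝ := B.cE h fun ω => ind (N ω) j

noncomputable def HH (c l : ℝ) (h : List X) (N : Ω → ℕ) : ℝ :=
  ∑ j ∈ range k, max 0 (c - l * yy B h N j)

theorem HH_nonneg (c l : ℝ) (h : List X) (N : Ω → ℕ) : 0 ≤ HH B c l h N :=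
  sum_nonneg fun _ _ => le_max_left _ _

theorem yy_nonneg (ω : Ω) (t : ℕ) (N : Ω → ℕ) (j : ℕ) : 0 ≤ yy B (B.hist ω t) N j :=
  (cE_const B ω t 0).symm.le.trans (cE_mono B fun _ _ => ind_nonneg _ _)

theorem yy_le (ω : Ω) (t : ℕ) (N : Ω → ℕ) (j : ℕ) : yy B (B.hist ω t) N j ≤ 1 :=
  (cE_mono B fun _ _ => by unfold ind; split_ifs <;> norm_num).trans (cE_const B ω t 1).le

theorem HH_le_cE {c l : ℝ} (hc : 0 ≤ c) (hl : c ≤ l) (ω : Ω) (t : ℕ) {N : Ω → ℕ}
    (hN : ∀ ω, N ω ≤ k) : HH B c l (B.hist ω t) N ≤ c * B.cE (B.hist ω t) fun ω' => N ω' := by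
  have h1 : ∑ j ∈ range k, yy B (B.hist ω t) N j + (B.cE (B.hist ω t) fun ω' => N ω') = k := by
    simp only [yy]
    rw [← cE_sum, ← cE_add, ← cE_const B ω t k]
    congr 1
    ext ω'
    rw [sum_ind, Nat.cast_sub (hN ω')]
    ring
  calc _ ≤ ∑ j ∈ range k, c * (1 - yy B (B.hist ω t) N j) := sum_le_sum fun j _ => by
        have h2 := yy_nonneg B ω t N j
        have h3 := yy_le B ω t N j
        exact max_le (mul_nonneg hc (by linarith)) (by nlinarith)
    _ = _ := by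
        rw [← mul_sum, sum_sub_distrib, eq_sub_of_add_eq' h1]
        simp

theorem HH_le {c l : ℝ} (hc : 0 ≤ c) (hl : 0 ≤ l) (ω : Ω) (t : ℕ) (N : Ω → ℕ) :
    HH B c l (B.hist ω t) N ≤ k * c := by
  have : ∑ j ∈ range k, c = k * c := by simp
  rw [← this]
  exact sum_le_sum fun j _ => max_le hc (sub_le_self _ (mul_nonneg hl (yy_nonneg B ω t N j)))

theorem le_HH (hk : 0 < k) {c l : ℝ} (hl : 0 ≤ l) (ω : Ω) (t : ℕ) {N : Ω → ℕ}
    (hN : ∀ ω', B.hist ω' t = B.hist ω t → 0 < N ω') : c ≤ HH B c l (B.hist ω t) N := by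
  have h1 : yy B (B.hist ω t) N 0 ≤ 0 :=
    (cE_mono B fun ω' h => by
      rw [ind, if_neg (hN ω' (by simpa using h)).not_ge]).trans (cE_const B ω t 0).le
  refine le_trans ?_ (single_le_sum (f := fun j => max 0 (c - l * yy B (B.hist ω t) N j))
    (fun _ _ => le_max_left _ _) (mem_range.2 hk))
  exact le_max_of_le_right (by nlinarith)

theorem HH_super {ι : Type*} [Fintype ι] {c l : ℝ} (hl0 : 0 ≤ l) (hl : c ≤ l) (ω : Ω) (t : ℕ)
    {N : ι → Ω → ℕ} {M : Ω → ℕ} (hM : ∀ ω, M ω = ∑ a, N a ω) (hk : ∀ ω, M ω ≤ k) :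
    ∑ a, HH B c l (B.hist ω t) (N a) ≤ HH B c l (B.hist ω t) M := by
  classical
  set h := B.hist ω t
  let S : ι → Finset ℕ := fun a => (range k).filter fun j => 0 < c - l * yy B h (N a) j
  have e1 : ∀ a, HH B c l h (N a) = (S a).card * c - l * ∑ j ∈ S a, yy B h (N a) j := by
    intro a
    rw [mul_sum, ← nsmul_eq_mul, ← sum_const, ← sum_sub_distrib, sum_filter]
    refine sum_congr rfl fun j _ => ?_
    split_ifs with h1
    · exact max_eq_right h1.le
    · exact max_eq_left (not_lt.1 h1)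
  have e2 : ∑ i ∈ range (∑ a, (S a).card), yy B h M i ≤ ∑ a, ∑ j ∈ S a, yy B h (N a) j := by
    simp only [yy, ← cE_sum]
    exact cE_mono B fun ω' _ => by rw [hM]; exact sum_ind_le _ _
  have e3 : ∑ i ∈ range (∑ a, (S a).card), max 0 (c - l * yy B h M i) ≤ HH B c l h M := by
    rw [← sum_filter_ne_zero]
    refine sum_le_sum_of_subset_of_nonneg (fun i hi => mem_range.2 ?_) fun _ _ _ => le_max_left _ _
    by_contra hik
    refine (mem_filter.1 hi).2 (max_eq_left ?_)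
    have : yy B h M i = 1 := by
      rw [← cE_const B ω t 1, yy]
      congr 1
      ext ω'
      exact if_pos ((hk ω').trans (not_lt.1 hik))
    rw [this]; linarith
  refine le_trans ?_ (le_trans (sum_le_sum fun i _ => le_max_right _ _) e3)
  simp only [e1, sum_sub_distrib, ← mul_sum, ← sum_mul, sum_const, card_range, nsmul_eq_mul]
  push_cast
  linarith [mul_le_mul_of_nonneg_left e2 hl0]

end cond

end Vale.Agent.P304.Fr
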