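import Vale.Agent.P304.Track
import Vale.Agent.P304.FracA

/-! The fractional allocation on the label tree. -/

namespace Vale.Agent.P304

open Finset Fr

universe u

theorem Bay.frac {X Ω Γ : Type u} [Fintype Ω] [Fintype Γ] [DecidableEq Γ] {k : ℕ} (B : Bay X Ω k)
    (hk : 0 < k) (D Q : ℕ) (good : List (Option Γ) → Prop) (g0 : good [])
    (g1 : ∀ a v, good (a :: v) → good v) (g2 : ∀ v, good v → good (none :: v))
    (g3 : ∀ v, good v → v.countP Option.isSome ≤ D)
    (nd : List X → Ω → Fin k → ℕ → List (Option Γ)) (n0 : ∀ h ω j, nd h ω j 0 = [])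
    (n1 : ∀ h ω j i, ∃ a, nd h ω j (i + 1) = a :: nd h ω j i)
    (n2 : ∀ ω j i, nd [] ω j i = List.replicate i none) :
    ∃ Z : List X → List (Option Γ) → ℕ,
      (∀ h, Z h [] = Q * k) ∧
      (∀ ω t v, Z (B.hist ω t) v = ∑ a, Z (B.hist ω t) (a :: v)) ∧
      (∀ ω t v, good v → (∀ ω', B.hist ω' t = B.hist ω t →
        ∃ j, nd (B.hist ω t) ω' j v.length = v) → Q ≤ Z (B.hist ω t) v) ∧
      (∀ h v, ¬ good v → Z h v = 0) ∧
      (∀ ω t a v, (Z (B.hist ω t) (some a :: v) : ℝ) ≤
        2 * Q * B.cE (B.hist ω t) fun ω' => cnt (nd (B.hist ω t) ω') (some a :: v)) ∧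
      ∀ i, (B.Ex fun ω t => ∑ v ∈ nodes i, ∑ a,
          |(Z (B.hist ω (t + 1)) (some a :: v) : ℝ) - Z (B.hist ω t) (some a :: v)|) ≤
        Q * (336 * (D + 1) * (1 + Real.log (2 * k))) *
          (B.Ex fun ω t => chg (nd (B.hist ω t) ω) (nd (B.hist ω (t + 1)) ω) (i + 1)) +
        B.T * (nodes (Λ := Option Γ) (i + 1)).card := by
  classical
  obtain ⟨F, Fm, Fs, Fl, F1, Fk, FL⟩ := exists_F Q k
  have hk' : (1 : ℝ) ≤ k := by exact_mod_cast hk
  have hD : (0 : ℝ) ≤ D := Nat.cast_nonneg D
  have hQ : (0 : ℝ) ≤ Q := Nat.cast_nonneg Q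
  obtain ⟨η, hη, hη1⟩ : ∃ η : ℝ, 0 < η ∧ η * (D + 1) = 1 :=
    ⟨1 / (D + 1), by positivity, by field_simp⟩
  obtain ⟨w, hw, hw1⟩ : ∃ w : ℝ, 0 < w ∧ w * (2 * k) = η :=
    ⟨η / (2 * k), by positivity, by field_simp⟩
  obtain ⟨l, c, ln, cn, ls, cs, l2, l3, c1, ck⟩ : ∃ l c : List (Option Γ) → ℝ,
      (∀ v, l (none :: v) = l v) ∧ (∀ v, c (none :: v) = c v) ∧
      (∀ a v, l (some a :: v) = l v + η) ∧ (∀ a v, c (some a :: v) = c v - w) ∧
      (∀ v, 2 ≤ l v) ∧ (∀ v, good v → l v ≤ 3) ∧ (∀ v, good v → 1 ≤ c v) ∧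
      ∀ v, k * c v ≤ k + 1 / 2 := by
    refine ⟨fun v => 2 + (v.countP Option.isSome : ℕ) * η,
      fun v => 1 + (D - (v.countP Option.isSome : ℕ)) * w, fun v => by simp, fun v => by simp,
      fun a v => by simp; ring, fun a v => by simp; ring,
      fun v => le_add_of_nonneg_right (by positivity), fun v hv => ?_, fun v hv => ?_, fun v => ?_⟩
    · have : ((v.countP Option.isSome : ℕ) : ℝ) ≤ D := by exact_mod_cast g3 v hv
      nlinarith
    · have : ((v.countP Option.isSome : ℕ) : ℝ) ≤ D := by exact_mod_cast g3 v hv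
      nlinarith
    · have : 0 ≤ ((v.countP Option.isSome : ℕ) : ℝ) * η := by positivity
      have h2 : (k : ℝ) * (1 + (D - (v.countP Option.isSome : ℕ)) * w) =
          k + (D - (v.countP Option.isSome : ℕ)) * (w * (2 * k)) / 2 := by ring
      beta_reduce
      rw [h2, hw1]
      nlinarith
  have l0 : ∀ v, 0 ≤ l v := fun v => zero_le_two.trans (l2 v)
  have c2 : ∀ v, c v ≤ 2 := fun v => by nlinarith [ck v]
  have cl : ∀ v, c v ≤ l v := fun v => (c2 v).trans (l2 v)
  let N : List X → List (Option Γ) → Ω → ℕ := fun h v ω => cnt (nd h ω) v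
  set K : ℝ := 84 * (D + 1) * (1 + Real.log (2 * k)) with hK
  have K0 : 0 ≤ K := by
    have := Real.log_nonneg (show (1 : ℝ) ≤ 2 * k by linarith)
    positivity
  have hA : ∀ (a : Γ) (v : List (Option Γ)) (j : ℕ), ∃ A : List X → ℝ, good (some a :: v) →
      (∀ ω t, l v * yy B (B.hist ω t) (N (B.hist ω t) (some a :: v)) j ≤ A (B.hist ω t) ∧
        A (B.hist ω t) ≤ w + (l v + η) * yy B (B.hist ω t) (N (B.hist ω t) (some a :: v)) j) ∧
      (B.Ex fun ω t => |A (B.hist ω (t + 1)) - A (B.hist ω t)|) ≤ K * B.Ex fun ω t =>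
        |ind (N (B.hist ω (t + 1)) (some a :: v) ω) j - ind (N (B.hist ω t) (some a :: v) ω) j| := by
    intro a v j
    by_cases hg : good (some a :: v)
    · obtain ⟨A, h1, h2⟩ := B.track (fun h ω => ind (N h (some a :: v) ω) j)
        (fun h ω => by unfold ind; split_ifs <;> simp)
        (fun ω => if_pos (by simp [N, cnt, n2, List.replicate_succ])) (l2 v)
        (ls a v ▸ l3 _ hg) hw (by nlinarith)
      refine ⟨A, fun _ => ⟨h1, h2.trans_eq ?_⟩⟩
      rw [hK, (div_eq_iff hw.ne').2 (show η = 2 * k * w by linarith),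
        (div_eq_iff hη.ne').2 (show 84 = 84 * (D + 1) * η by linarith)]
    · exact ⟨0, fun h => absurd h hg⟩
  choose A hA using hA
  let z : List X → Γ → List (Option Γ) → ℝ := fun h a v => ∑ j ∈ range k, max 0 (c v - A a v j h)
  have z0 : ∀ h a v, 0 ≤ z h a v := fun h a v => sum_nonneg fun _ _ => le_max_left _ _
  let G : List X → Γ → List (Option Γ) → ℕ := fun h a v =>
    if good (some a :: v) then F (z h a v) else 0
  have hG : ∀ ω t a v, G (B.hist ω t) a v ≤
      F (HH B (c v) (l v) (B.hist ω t) (N (B.hist ω t) (some a :: v))) := by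
    intro ω t a v
    by_cases hg : good (some a :: v)
    · refine (if_pos hg).trans_le (Fm (sum_le_sum fun j _ => max_le_max_left _ ?_))
      linarith [((hA a v j hg).1 ω t).1]
    · exact (if_neg hg).trans_le (Nat.zero_le _)
  have key : ∀ ω t v, F (HH B (c v) (l v) (B.hist ω t) (N (B.hist ω t) (none :: v))) +
      ∑ a, G (B.hist ω t) a v ≤ F (HH B (c v) (l v) (B.hist ω t) (N (B.hist ω t) v)) := by
    intro ω t v
    have h1 := (sum_F_le Fs univ _ fun o => HH_nonneg B _ _ _ _).trans
      (Fm (HH_super B (l0 v) (cl v) ω t (N := fun o => N (B.hist ω t) (o :: v))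
        (M := N (B.hist ω t) v) (fun ω' => cnt_eq _ (n1 _ ω') v) fun ω' => cnt_le _ v))
    rw [Fintype.sum_option] at h1
    exact (Nat.add_le_add_left (sum_le_sum fun a _ => hG ω t a v) _).trans h1
  have inv : ∀ ω t v, good v → F (HH B (c v) (l v) (B.hist ω t) (N (B.hist ω t) v)) ≤
      Zf (Q * k) (G (B.hist ω t)) v := by
    intro ω t v
    induction v with
    | nil => exact fun hg => Fk _ ((HH_le B (by linarith [c1 _ hg]) (l0 _) ω t _).trans (ck _))
    | cons o v ih =>
      intro hg
      cases o with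
      | none =>
        rw [ln, cn]
        exact Nat.le_sub_of_add_le ((key ω t v).trans (ih (g1 _ _ hg)))
      | some a =>
        refine (Fm (sum_le_sum fun j _ => max_le_max_left _ ?_)).trans_eq (if_pos hg).symm
        rw [ls, cs]
        linarith [((hA a v j hg).1 ω t).2]
  refine ⟨fun h => Zf (Q * k) (G h), fun _ => rfl, fun ω t v => ?_, fun ω t v hg H => ?_,
    fun h v => ?_, fun ω t a v => ?_, fun i => ?_⟩
  · rw [Fintype.sum_option]
    refine (Nat.sub_add_cancel ?_).symm
    by_cases hg : good v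
    · exact le_of_add_le_right ((key ω t v).trans (inv ω t v hg))
    · exact (sum_eq_zero fun a _ => if_neg fun h => hg (g1 _ _ h)).trans_le (Nat.zero_le _)
  · refine (F1 _ ((c1 v hg).trans (le_HH B hk (l0 v) ω t fun ω' h => ?_))).trans (inv ω t v hg)
    obtain ⟨j, hj⟩ := H ω' h
    exact card_pos.2 ⟨j, by simpa using hj⟩
  · induction v with
    | nil => exact fun h => absurd g0 h
    | cons o v ih =>
      intro hg
      cases o with
      | none => exact Nat.sub_eq_zero_of_le ((ih fun h => hg (g2 _ h)).trans_le (Nat.zero_le _))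
      | some a => exact if_neg hg
  · have h0 : 0 ≤ B.cE (B.hist ω t) fun ω' => cnt (nd (B.hist ω t) ω') (some a :: v) :=
      (cE_const B ω t 0).symm.le.trans (cE_mono B fun _ _ => Nat.cast_nonneg _)
    by_cases hg : good (some a :: v)
    · have h1 := HH_le_cE B (zero_le_one.trans (c1 _ (g1 _ _ hg))) (cl v) ω t
        (N := N (B.hist ω t) (some a :: v)) fun ω' => cnt_le _ _
      have h2 := (Nat.cast_le (α := ℝ).2 (hG ω t a v)).trans (Fl _ (HH_nonneg B _ _ _ _))
      have h3 := mul_le_mul_of_nonneg_left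
        (h1.trans (mul_le_mul_of_nonneg_right (c2 v) h0)) hQ
      exact h2.trans (h3.trans_eq (by ring))
    · have : G (B.hist ω t) a v = 0 := if_neg hg
      simp only [Zf, this, Nat.cast_zero]
      positivity
  · let f : List (Option Γ) → ℝ := fun u => 2 * Q * K *
      (B.Ex fun ω t => |(N (B.hist ω (t + 1)) u ω : ℝ) - N (B.hist ω t) u ω|) + B.T
    have f0 : ∀ u, 0 ≤ f u := fun u =>
      add_nonneg (mul_nonneg (by positivity) (B.Ex_nonneg fun _ _ => abs_nonneg _)) (by positivity)
    have h1 : ∀ v a, (B.Ex fun ω t => |(G (B.hist ω (t + 1)) a v : ℝ) - G (B.hist ω t) a v|) ≤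
        f (some a :: v) := by
      intro v a
      by_cases hg : good (some a :: v)
      · calc _ ≤ B.Ex fun ω t => 2 * Q * ∑ j ∈ range k,
              |A a v j (B.hist ω (t + 1)) - A a v j (B.hist ω t)| + 1 := by
              refine B.Ex_mono fun ω t => ?_
              simp only [G, if_pos hg]
              refine (FL _ _ (z0 _ _ _) (z0 _ _ _)).trans ?_
              gcongr
              simp only [z, ← sum_sub_distrib]
              refine (abs_sum_le_sum_abs _ _).trans (sum_le_sum fun j _ => ?_)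
              rw [max_comm 0, max_comm 0]
              refine (abs_max_sub_max_le_abs _ _ _).trans_eq ?_
              rw [abs_sub_comm]
              congr 1
              ring
          _ ≤ _ := by
              simp only [f]
              rw [B.Ex_add, B.Ex_mul, B.Ex_const, B.Ex_sum, mul_one, mul_assoc (2 * Q : ℝ)]
              gcongr
              refine (sum_le_sum fun j _ => (hA a v j hg).2).trans ?_
              rw [← mul_sum, ← B.Ex_sum]
              exact mul_le_mul_of_nonneg_left (B.Ex_mono fun ω t => sum_abs_ind _ _ _) K0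
      · simp only [G, if_neg hg, sub_self, abs_zero, B.Ex_const, mul_zero]
        exact f0 _
    calc _ = ∑ v ∈ nodes i, ∑ a, B.Ex fun ω t =>
            |(G (B.hist ω (t + 1)) a v : ℝ) - G (B.hist ω t) a v| := by
          simp only [B.Ex_sum, Zf]
      _ ≤ ∑ v ∈ nodes (i + 1), f v := by
          rw [sum_nodes_succ]
          refine sum_le_sum fun v _ => ?_
          rw [Fintype.sum_option]
          exact (sum_le_sum fun a _ => h1 v a).trans (le_add_of_nonneg_left (f0 _))
      _ ≤ _ := by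
          simp only [f, sum_add_distrib, ← mul_sum, ← B.Ex_sum, sum_const, nsmul_eq_mul]
          have h2 := B.Ex_mono fun ω t =>
            sum_cnt_le (nd (B.hist ω t) ω) (nd (B.hist ω (t + 1)) ω) (i + 1)
          rw [B.Ex_mul] at h2
          have h3 := mul_le_mul_of_nonneg_left h2 (show 0 ≤ 2 * Q * K by positivity)
          rw [mul_comm (B.T : ℝ)]
          exact add_le_add (h3.trans_eq (by rw [hK]; ring)) le_rfl

end Vale.Agent.P304
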