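import Vale.Agent.P304.RoundB

/-! Online rounding on a hierarchically separated tree, with `Q` parallel copies. -/

namespace Vale.Agent.P304

open Finset

universe u

variable {Λ : Type u} [Fintype Λ] [DecidableEq Λ]

/-- `V q j` is the leaf of server `j` in copy `q`; the counts are balanced with totals `Z`. -/
def Bal {Q k : ℕ} (L : ℕ) (V : Fin Q → Fin k → List Λ) (Z : List Λ → ℕ) : Prop :=
  (∀ q j, (V q j).length = L) ∧ ∀ v : List Λ, v.length ≤ L →
    ∑ q, cnt (fun j i => anc i (V q j)) v = Z v ∧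
      ∀ q q', cnt (fun j i => anc i (V q j)) v ≤ cnt (fun j i => anc i (V q' j)) v + 1

namespace RoundC

open RoundA RoundB

theorem counts {Q k L : ℕ} {V : Fin Q → Fin k → List Λ} {Z Z' : List Λ → ℕ} (hV : Bal L V Z)
    (h0 : Z' [] = Q * k) (h1 : ∀ v : List Λ, v.length < L → Z' v = ∑ a, Z' (a :: v)) :
    ∃ N : List Λ → Fin Q → ℤ, (∀ q, N [] q = k) ∧
      (∀ v, v.length ≤ L → Bl (N v) ∧ ∑ q, N v q = Z' v) ∧
      ∀ v, v.length < L → (∀ q, ∑ a, N (a :: v) q = N v q) ∧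
        ∑ q, ∑ a, |N (a :: v) q - C (V q) (a :: v)| ≤
          3 * (∑ q, |N v q - C (V q) v| + ∑ a, |(Z' (a :: v) : ℤ) - Z (a :: v)|) := by
  have hC : ∀ v : List Λ, v.length ≤ L → (Bl fun q => C (V q) v) ∧ ∑ q, C (V q) v = Z v := by
    intro v hv
    obtain ⟨a1, a2⟩ := hV.2 v hv
    refine ⟨fun q q' => ?_, ?_⟩
    · have := a2 q q'
      simp only [C_eq]; exact_mod_cast this
    · simp only [C_eq]; exact_mod_cast a1
  have key : ∀ (v : List Λ) (b : Fin Q → ℤ), ∃ m : Fin Q → Λ → ℤ,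
      v.length < L → Bl b → ∑ q, b q = Z' v →
        (∀ x, Bl fun q => m q x) ∧ (∀ q, ∑ x, m q x = b q) ∧ (∀ x, ∑ q, m q x = Z' (x :: v)) ∧
          ∑ q, ∑ a, |m q a - C (V q) (a :: v)| ≤
            3 * (∑ q, |b q - C (V q) v| + ∑ a, |(Z' (a :: v) : ℤ) - Z (a :: v)|) := by
    intro v b
    by_cases h : v.length < L ∧ Bl b ∧ ∑ q, b q = Z' v
    · obtain ⟨hv, hb, hs⟩ := h
      have e1 : ∀ q, ∑ x, C (V q) (x :: v) = C (V q) v := fun q => C_cons (hV.1 q) hv
      have e2 : ∀ x, ∑ q, C (V q) (x :: v) = Z (x :: v) := fun x => (hC (x :: v) hv).2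
      obtain ⟨m, m1, m2, m3, m4⟩ := star (fun q x => C (V q) (x :: v)) b
        (fun x => (Z' (x :: v) : ℤ)) (fun x => (hC (x :: v) hv).1)
        (by simp only [e1]; exact (hC v hv.le).1) hb
        (hb.nonneg (by rw [hs]; exact Int.natCast_nonneg _)) (fun x => Int.natCast_nonneg _)
        (by rw [hs, h1 v hv]; push_cast; rfl)
      refine ⟨m, fun _ _ _ => ⟨m1, m2, m3, ?_⟩⟩
      simp only [dd, e1, e2] at m4
      exact m4
    · exact ⟨fun _ _ => 0, fun a b c => absurd ⟨a, b, c⟩ h⟩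
  choose F hF using key
  let N : List Λ → Fin Q → ℤ := fun v =>
    List.rec (motive := fun _ => Fin Q → ℤ) (fun _ => k) (fun a v ih q => F v ih q a) v
  have hN : ∀ v, v.length ≤ L → Bl (N v) ∧ ∑ q, N v q = Z' v := by
    intro v
    induction v with
    | nil =>
      intro _
      refine ⟨fun q q' => ?_, ?_⟩
      · show (k : ℤ) ≤ k + 1
        omega
      · show ∑ _q : Fin Q, (k : ℤ) = _
        simp [h0]
    | cons a v ih =>
      intro hv
      obtain ⟨i1, i2⟩ := ih (Nat.le_of_succ_le hv)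
      obtain ⟨m1, -, m3, -⟩ := hF v (N v) hv i1 i2
      exact ⟨m1 a, m3 a⟩
  refine ⟨N, fun _ => rfl, hN, fun v hv => ?_⟩
  obtain ⟨i1, i2⟩ := hN v hv.le
  obtain ⟨-, m2, -, m4⟩ := hF v (N v) hv i1 i2
  exact ⟨m2, m4⟩

theorem geo (L : ℕ) (A δ τ : ℕ → ℝ) (hτ : ∀ i, 0 ≤ τ i) (hτ' : ∀ i, 6 * τ (i + 1) ≤ τ i)
    (hA : ∀ i, 0 ≤ A i) (hδ : ∀ i, 0 ≤ δ i) (h0 : A 0 = 0)
    (h : ∀ i, i < L → A (i + 1) ≤ 3 * (A i + δ (i + 1))) :
    ∑ i ∈ range (L + 1), τ i * A i ≤ 6 * ∑ i ∈ range (L + 1), τ i * δ i := by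
  have key : ∀ n, n ≤ L → ∑ i ∈ range (n + 1), τ i * A i + τ n * A n ≤
      6 * ∑ i ∈ range (n + 1), τ i * δ i := by
    intro n
    induction n with
    | zero =>
      intro _
      have := mul_nonneg (hτ 0) (hδ 0)
      simp only [zero_add, range_one, sum_singleton, h0, mul_zero]
      linarith
    | succ n ih =>
      intro hn
      have h1 := ih (by omega)
      have h2 := mul_le_mul_of_nonneg_left (h n hn) (hτ (n + 1))
      have h3 := mul_le_mul_of_nonneg_right (hτ' n) (hA n)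
      rw [sum_range_succ _ (n + 1), sum_range_succ (fun i => τ i * δ i) (n + 1)]
      linarith
  have := key L le_rfl
  have := mul_nonneg (hτ L) (hA L)
  linarith

end RoundC

open RoundA RoundB RoundC in
theorem round_step {Q k L : ℕ} {V : Fin Q → Fin k → List Λ} {Z Z' : List Λ → ℕ} (hV : Bal L V Z)
    (h0 : Z' [] = Q * k) (h1 : ∀ v : List Λ, v.length < L → Z' v = ∑ a, Z' (a :: v))
    (τ : ℕ → ℝ) (hτ : ∀ i, 0 ≤ τ i) (hτ' : ∀ i, 6 * τ (i + 1) ≤ τ i) :
    ∃ V' : Fin Q → Fin k → List Λ, Bal L V' Z' ∧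
      ∑ i ∈ range (L + 1), τ i *
          ∑ q, (chg (fun j i => anc i (V q j)) (fun j i => anc i (V' q j)) i : ℝ) ≤
        6 * ∑ i ∈ range (L + 1), τ i * ∑ v ∈ nodes i, |(Z' v : ℝ) - Z v| := by
  obtain ⟨N, n0, n1, n2⟩ := counts hV h0 h1
  have hm : ∀ q, ∃ V' : Fin k → List Λ, (∀ j, (V' j).length = L) ∧
      (∀ v, v.length ≤ L → C V' v = N v q) ∧
      ∀ i, i ≤ L → (chg (fun j i => anc i (V q j)) (fun j i => anc i (V' j)) i : ℤ) ≤
        Δ (fun v => N v q) (V q) i := fun q =>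
    matching (fun v => N v q) (n0 q) (fun v hv => (n2 v hv).1 q)
      (fun v hv => (n1 v hv).1.nonneg (by rw [(n1 v hv).2]; exact Int.natCast_nonneg _) q)
      (Δ (fun v => N v q) (V q) L + 1).toNat (V q) (hV.1 q) (by omega)
  choose V' v1 v2 v3 using hm
  refine ⟨V', ⟨v1, fun v hv => ⟨?_, fun q q' => ?_⟩⟩, ?_⟩
  · have := (n1 v hv).2
    simp only [← v2 _ v hv, C_eq] at this
    exact_mod_cast this
  · have := (n1 v hv).1 q q'
    simp only [← v2 _ v hv, C_eq] at this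
    exact_mod_cast this
  · have hg := geo L (fun i => ((∑ q, Δ (fun v => N v q) (V q) i : ℤ) : ℝ))
      (fun i => ∑ v ∈ nodes i, |(Z' v : ℝ) - Z v|) τ hτ hτ'
      (fun i => Int.cast_nonneg_iff.2 (sum_nonneg fun q _ => Δ_nonneg _ _ _))
      (fun i => sum_nonneg fun _ _ => abs_nonneg _)
      (by simp [Δ, nodes, n0, C_nil]) (fun i hi => by
        have e : ∑ q, Δ (fun v => N v q) (V q) (i + 1) ≤
            3 * (∑ q, Δ (fun v => N v q) (V q) i +
              ∑ v ∈ nodes (i + 1), |(Z' v : ℤ) - Z v|) := by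
          simp only [Δ, sum_nodes_succ]
          rw [sum_comm, sum_comm (s := univ), ← sum_add_distrib, mul_sum]
          exact sum_le_sum fun v hv => (n2 v (by rw [mem_nodes.1 hv]; exact hi)).2
        have e' : ((∑ q, Δ (fun v => N v q) (V q) (i + 1) : ℤ) : ℝ) ≤
            ((3 * (∑ q, Δ (fun v => N v q) (V q) i +
              ∑ v ∈ nodes (i + 1), |(Z' v : ℤ) - Z v|) : ℤ) : ℝ) := Int.cast_le.2 e
        rw [Int.cast_mul, Int.cast_add, Int.cast_sum (f := fun v => |(Z' v : ℤ) - Z v|)] at e'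
        simpa using e')
    refine le_trans (sum_le_sum fun i hi => mul_le_mul_of_nonneg_left ?_ (hτ i)) hg
    have e : ∑ q, (chg (fun j i => anc i (V q j)) (fun j i => anc i (V' q j)) i : ℤ) ≤
        ∑ q, Δ (fun v => N v q) (V q) i :=
      sum_le_sum fun q _ => v3 q i (Nat.lt_succ_iff.1 (mem_range.1 hi))
    exact_mod_cast e

end Vale.Agent.P304
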