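import Vale.Agent.P304.EmbDef
import Vale.Agent.P304.Round

/-! Helper lemmas for the physical policy. -/

namespace Vale.Agent.P304.Phys

open Finset

universe u

section anc

variable {Λ : Type u}

lemma anc_length {i : ℕ} {l : List Λ} (h : i ≤ l.length) : (anc i l).length = i := by
  simp only [anc, List.length_drop]
  omega

lemma anc_self {L : ℕ} {l : List Λ} (h : l.length = L) : anc L l = l := by simp [anc, h]

lemma anc_zero (l : List Λ) : anc 0 l = [] := by simp [anc]

lemma anc_succ {i : ℕ} {l : List Λ} (h : i + 1 ≤ l.length) : ∃ a, anc (i + 1) l = a :: anc i l := by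
  refine ⟨l[l.length - (i + 1)]'(by omega), ?_⟩
  rw [anc, anc, List.drop_eq_getElem_cons (by omega)]
  congr 2
  omega

lemma anc_replicate {i L : ℕ} (h : i ≤ L) (a : Λ) :
    anc i (List.replicate L a) = List.replicate i a := by
  simp only [anc, List.length_replicate, List.drop_replicate]
  congr 1
  omega

variable [Fintype Λ] [DecidableEq Λ] {k : ℕ}

lemma sum_cnt (f : Fin k → ℕ → List Λ) {i : ℕ} (hf : ∀ j, (f j i).length = i) (F : List Λ → ℝ) :
    ∑ j, F (f j i) = ∑ v ∈ nodes i, (cnt f v : ℝ) * F v := by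
  rw [← sum_fiberwise_of_maps_to (s := univ) (t := nodes i) (g := fun j => f j i)
    fun j _ => mem_nodes.2 (hf j)]
  refine sum_congr rfl fun v hv => ?_
  rw [sum_congr rfl fun j hj => by rw [(mem_filter.1 hj).2], cnt, mem_nodes.1 hv]
  simp

omit [Fintype Λ] in
lemma cnt_pos {f : Fin k → ℕ → List Λ} {v : List Λ} : 0 < cnt f v ↔ ∃ j, f j v.length = v := by
  simp [cnt, card_pos, Finset.Nonempty]

omit [Fintype Λ] in
lemma sum_ite_chg (f f' : Fin k → ℕ → List Λ) (i : ℕ) (c : ℝ) :
    (∑ j, if f j i = f' j i then 0 else c) = c * chg f f' i := by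
  simp [chg, sum_ite, mul_comm]

omit [Fintype Λ] in
lemma Bal.pos {Q L : ℕ} {V : Fin Q → Fin k → List Λ} {Z : List Λ → ℕ} (hV : Bal L V Z) (q : Fin Q)
    (j : Fin k) {i : ℕ} (hi : i ≤ L) : 0 < Z (anc i (V q j)) := by
  have hl : (anc i (V q j)).length = i := anc_length (by rw [hV.1]; exact hi)
  rw [← (hV.2 _ (by omega)).1]
  exact lt_of_lt_of_le (cnt_pos.2 ⟨j, by rw [hl]⟩)
    (single_le_sum (f := fun q' => cnt (fun j i => anc i (V q' j)) (anc i (V q j)))
      (fun _ _ => Nat.zero_le _) (mem_univ q))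

omit [Fintype Λ] in
lemma Bal.exists_eq {Q L : ℕ} {V : Fin Q → Fin k → List Λ} {Z : List Λ → ℕ} (hV : Bal L V Z)
    {v : List Λ} (hv : v.length = L) (hZ : Q ≤ Z v) (q : Fin Q) : ∃ j, V q j = v := by
  obtain ⟨h1, h2⟩ := hV.2 v hv.le
  have : 0 < cnt (fun j i => anc i (V q j)) v := by
    by_contra h0
    have : ∑ q', cnt (fun j i => anc i (V q' j)) v < ∑ _q' : Fin Q, 1 :=
      sum_lt_sum (fun q' _ => by have := h2 q' q; omega) ⟨q, mem_univ _, by omega⟩
    simp only [sum_const, card_univ, Fintype.card_fin, smul_eq_mul, mul_one] at this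
    omega
  obtain ⟨j, hj⟩ := cnt_pos.1 this
  exact ⟨j, by rw [← hj, hv, anc_self (hV.1 q j)]⟩

end anc

lemma bal_init {Γ : Type u} [Fintype Γ] [DecidableEq Γ] {Q k L : ℕ} {Z : List (Option Γ) → ℕ}
    (h0 : Z [] = Q * k) (h1 : ∀ v, Z v = ∑ a, Z (a :: v)) (h2 : ∀ a v, Z (some a :: v) = 0) :
    Bal L (fun (_ : Fin Q) (_ : Fin k) => List.replicate L none) Z := by
  have hZ : ∀ v, Z v = if List.replicate v.length none = v then Q * k else 0 := by
    intro v
    induction v with
    | nil => simpa using h0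
    | cons a v ih =>
      cases a with
      | none =>
        have := h1 v
        simp only [Fintype.sum_option, h2, sum_const_zero, add_zero] at this
        simp [← this, ih, List.replicate_succ]
      | some a => simp [h2, List.replicate_succ]
  refine ⟨fun _ _ => List.length_replicate, fun v hv => ⟨?_, fun _ _ => Nat.le_succ _⟩⟩
  rw [hZ]
  simp only [cnt, anc_replicate hv]
  split_ifs with h <;> simp [h]

lemma delta_le {Γ : Type u} [Fintype Γ] [DecidableEq Γ] {Z Z' : List (Option Γ) → ℕ}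
    (h0 : Z' [] = Z []) (h1 : ∀ v, Z v = ∑ a, Z (a :: v)) (h1' : ∀ v, Z' v = ∑ a, Z' (a :: v))
    {τ : ℕ → ℝ} (hτ : ∀ i, 0 < τ i) (hτ' : ∀ i, τ i = 10 * τ (i + 1)) (L : ℕ) :
    ∑ i ∈ range (L + 1), τ i * ∑ v ∈ nodes i, |(Z' v : ℝ) - Z v| ≤
      20 / 9 * ∑ i ∈ range L, τ (i + 1) *
        ∑ v ∈ nodes i, ∑ a, |(Z' (some a :: v) : ℝ) - Z (some a :: v)| := by
  have hs : ∀ i, ∑ v ∈ nodes (i + 1), |(Z' v : ℝ) - Z v| ≤ ∑ v ∈ nodes i, |(Z' v : ℝ) - Z v| +
      2 * ∑ v ∈ nodes i, ∑ a, |(Z' (some a :: v) : ℝ) - Z (some a :: v)| := by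
    intro i
    rw [sum_nodes_succ, mul_sum, ← sum_add_distrib]
    refine sum_le_sum fun v _ => ?_
    have e : (Z' (none :: v) : ℝ) - Z (none :: v) =
        ((Z' v : ℝ) - Z v) - ∑ a, ((Z' (some a :: v) : ℝ) - Z (some a :: v)) := by
      rw [h1 v, h1' v, Fintype.sum_option, Fintype.sum_option, sum_sub_distrib]
      push_cast
      ring
    have a1 := abs_sub ((Z' v : ℝ) - Z v) (∑ a, ((Z' (some a :: v) : ℝ) - Z (some a :: v)))
    have a2 := abs_sum_le_sum_abs (fun a => (Z' (some a :: v) : ℝ) - Z (some a :: v)) univ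
    rw [Fintype.sum_option, e]
    linarith
  have key : ∀ n, ∑ i ∈ range (n + 1), τ i * ∑ v ∈ nodes i, |(Z' v : ℝ) - Z v| +
      1 / 9 * (τ n * ∑ v ∈ nodes n, |(Z' v : ℝ) - Z v|) ≤ 20 / 9 * ∑ i ∈ range n, τ (i + 1) *
        ∑ v ∈ nodes i, ∑ a, |(Z' (some a :: v) : ℝ) - Z (some a :: v)| := by
    intro n
    induction n with
    | zero => simp [nodes, h0]
    | succ n ih =>
      rw [sum_range_succ _ (n + 1), sum_range_succ (fun i => τ (i + 1) * _) n]
      have := mul_le_mul_of_nonneg_left (hs n) (hτ (n + 1)).le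
      rw [hτ' n] at ih
      linarith
  have : 0 ≤ τ L * ∑ v ∈ nodes L, |(Z' v : ℝ) - Z v| :=
    mul_nonneg (hτ L).le (sum_nonneg fun _ _ => abs_nonneg _)
  linarith [key L]

section emb

variable {X Ω : Type u} [Fintype Ω] [MetricSpace X] [DecidableEq X] {k : ℕ}
  {B : Bay X Ω k} {D : ℕ} {K : ℝ} (E : Emb B D K)

lemma lab_length (h : List X) (x : X) (i : ℕ) : (E.lab h x i).length = i := by
  induction i with
  | zero => simp [E.lab_zero]
  | succ i ih =>
    obtain ⟨a, ha⟩ := E.lab_succ h x i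
    simp [ha, ih]

omit [MetricSpace X] [DecidableEq X] in
lemma good_tail {a : Option (Option X)} {v : List (Option (Option X))} (h : Good D (a :: v)) :
    Good D v :=
  ⟨fun hm => h.1 (List.mem_cons_of_mem _ hm), le_trans (by simp [List.countP_cons]) h.2⟩

/-- the centres along a branch of occupied nodes -/
lemma claimK (ω : Ω) (t : ℕ) {l : List (Option (Option X))} (hl : l.length = E.L)
    (hocc : ∀ i a v, i ≤ E.L → anc i l = some a :: v → Good D (some a :: v) ∧
      ∃ ω' j, B.hist ω' t = B.hist ω t ∧ E.lab (B.hist ω t) (B.off ω' t j) i = some a :: v)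
    {i : ℕ} (hi : i ≤ E.L) :
    dist (E.cen (B.hist ω t) l) (E.cen (B.hist ω t) (anc i l)) ≤ 3 * E.τ i := by
  induction hi using Nat.decreasingInduction with
  | self =>
    rw [anc_self hl, dist_self]
    exact mul_nonneg (by norm_num) (E.τ_pos _).le
  | of_succ i hi ih =>
    obtain ⟨a, ha⟩ := anc_succ (i := i) (l := l) (by omega)
    have t1 := E.τ_succ i
    have t2 := E.τ_pos (i + 1)
    rw [ha] at ih
    cases a with
    | none => rw [E.cen_star] at ih; linarith
    | some a =>
      obtain ⟨g, ω', j, e1, e2⟩ := hocc (i + 1) a _ hi ha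
      obtain ⟨b, hb⟩ := E.lab_succ (B.hist ω t) (B.off ω' t j) i
      have e3 : E.lab (B.hist ω t) (B.off ω' t j) i = anc i l :=
        (List.cons.inj (hb.symm.trans e2)).2
      have n1 := E.near ω' t j (i + 1)
      have n2 := E.near ω' t j i
      rw [e1, e2] at n1
      rw [e1, e3] at n2
      have d1 := dist_triangle (E.cen (B.hist ω t) l) (E.cen (B.hist ω t) (some a :: anc i l))
        (E.cen (B.hist ω t) (anc i l))
      have d2 := dist_triangle_left (E.cen (B.hist ω t) (some a :: anc i l))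
        (E.cen (B.hist ω t) (anc i l)) (B.off ω' t j)
      linarith [n1 g, n2 (good_tail g)]

open Classical in
/-- shift of the centre of a top node -/
noncomputable def sh (h h' : List X) (v : List (Option (Option X))) : ℝ :=
  if Top v then dist (E.cen h v) (E.cen h' v) else 0

lemma sh_nonneg (h h' : List X) (v : List (Option (Option X))) : 0 ≤ sh E h h' v := by
  unfold sh
  split_ifs
  · exact dist_nonneg
  · exact le_rfl

lemma shift_le (h h' : List X) {l : List (Option (Option X))} (hl : l.length = E.L) {n : ℕ}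
    (hn : n ≤ E.L) : dist (E.cen h (anc n l)) (E.cen h' (anc n l)) ≤
      ∑ i ∈ range (E.L + 1), sh E h h' (anc i l) := by
  have top : ∀ n ≤ E.L, Top (anc n l) → dist (E.cen h (anc n l)) (E.cen h' (anc n l)) ≤
      ∑ i ∈ range (E.L + 1), sh E h h' (anc i l) := fun n hn ht =>
    le_trans (by rw [sh, if_pos ht]) (single_le_sum (f := fun i => sh E h h' (anc i l))
      (fun _ _ => sh_nonneg E _ _ _) (mem_range.2 (Nat.lt_succ_of_le hn)))
  induction n with
  | zero => exact top 0 hn (by simp [anc_zero, Top])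
  | succ n ih =>
    obtain ⟨a, ha⟩ := anc_succ (i := n) (l := l) (by omega)
    cases a with
    | none => rw [ha, E.cen_star, E.cen_star]; exact ih (by omega)
    | some a => exact top _ hn (by simp [ha, Top])

lemma move_le (h h' : List X) {l l' : List (Option (Option X))} (hl : l.length = E.L)
    (hl' : l'.length = E.L) (k1 : ∀ i ≤ E.L, dist (E.cen h l) (E.cen h (anc i l)) ≤ 3 * E.τ i)
    (k2 : ∀ i ≤ E.L, dist (E.cen h' l') (E.cen h' (anc i l')) ≤ 3 * E.τ i) :
    dist (E.cen h l) (E.cen h' l') ≤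
      (∑ i ∈ range (E.L + 1), if anc i l = anc i l' then 0 else 60 * E.τ i) +
        ∑ i ∈ range (E.L + 1), sh E h h' (anc i l') := by
  have nn : ∀ i, 0 ≤ if anc i l = anc i l' then 0 else 60 * E.τ i := fun i => by
    have := E.τ_pos i
    split_ifs <;> linarith
  have key : ∀ n ≤ E.L, anc n l = anc n l' ∨ dist (E.cen h l) (E.cen h' l') ≤
      (∑ i ∈ range (E.L + 1), if anc i l = anc i l' then 0 else 60 * E.τ i) +
        ∑ i ∈ range (E.L + 1), sh E h h' (anc i l') := by
    intro n hn
    induction n with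
    | zero => exact Or.inl (by rw [anc_zero, anc_zero])
    | succ n ih =>
      rcases ih (by omega) with e | e
      swap
      · exact Or.inr e
      by_cases e' : anc (n + 1) l = anc (n + 1) l'
      · exact Or.inl e'
      right
      have a1 := single_le_sum (f := fun i => if anc i l = anc i l' then 0 else 60 * E.τ i)
        (fun i _ => nn i) (mem_range.2 (Nat.lt_succ_of_le hn))
      simp only [if_neg e'] at a1
      have a2 := shift_le E h h' hl' (n := n) (by omega)
      have a3 := k1 n (by omega)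
      have a4 := k2 n (by omega)
      have a5 := dist_triangle4 (E.cen h l) (E.cen h (anc n l')) (E.cen h' (anc n l')) (E.cen h' l')
      rw [e] at a3
      rw [dist_comm] at a4
      linarith [E.τ_succ n]
  rcases key _ le_rfl with e | e
  · rw [anc_self hl, anc_self hl'] at e
    have a2 := shift_le E h h' hl' le_rfl
    rw [anc_self hl'] at a2
    rw [e]
    exact a2.trans (le_add_of_nonneg_left (sum_nonneg fun i _ => by simp))
  · exact e

omit [DecidableEq X] in
/-- the potential argument for one copy -/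
lemma cost_le (a : List X → Fin k) (s : Fin k → X) (c : List X → Fin k → X)
    (h0 : ∀ j, c [] j = B.s0) (hr : ∀ ω t, c (B.hist ω (t + 1)) (a (B.hist ω (t + 1))) = B.req ω t) :
    (B.Ex fun ω t => dist (B.conf a s ω t (a (B.hist ω (t + 1)))) (B.req ω t)) ≤
      ∑ j, dist (s j) B.s0 +
        B.Ex fun ω t => ∑ j, dist (c (B.hist ω t) j) (c (B.hist ω (t + 1)) j) := by
  have key : ∀ ω n, ∑ t ∈ range n, dist (B.conf a s ω t (a (B.hist ω (t + 1)))) (B.req ω t) +
      ∑ j, dist (B.conf a s ω n j) (c (B.hist ω n) j) ≤ ∑ j, dist (s j) B.s0 +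
        ∑ t ∈ range n, ∑ j, dist (c (B.hist ω t) j) (c (B.hist ω (t + 1)) j) := by
    intro ω n
    induction n with
    | zero => simp [Bay.conf, Bay.hist, h0]
    | succ n ih =>
      have : dist (B.conf a s ω n (a (B.hist ω (n + 1)))) (B.req ω n) +
          ∑ j, dist (B.conf a s ω (n + 1) j) (c (B.hist ω (n + 1)) j) =
          ∑ j, dist (B.conf a s ω n j) (c (B.hist ω (n + 1)) j) := by
        rw [← add_sum_erase _ _ (mem_univ (a (B.hist ω (n + 1)))),
          ← add_sum_erase _ _ (mem_univ (a (B.hist ω (n + 1)))), hr]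
        simp only [Bay.conf, Function.update_self, dist_self, zero_add]
        congr 1
        exact sum_congr rfl fun j hj => by rw [Function.update_of_ne (ne_of_mem_erase hj)]
      have h2 : ∑ j, dist (B.conf a s ω n j) (c (B.hist ω (n + 1)) j) ≤
          ∑ j, dist (B.conf a s ω n j) (c (B.hist ω n) j) +
            ∑ j, dist (c (B.hist ω n) j) (c (B.hist ω (n + 1)) j) := by
        rw [← sum_add_distrib]
        exact sum_le_sum fun j _ => dist_triangle _ _ _
      rw [sum_range_succ, sum_range_succ]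
      linarith
  have e : ∑ j, dist (s j) B.s0 = ∑ ω, B.p ω * ∑ j, dist (s j) B.s0 := by
    rw [← sum_mul, B.p_sum, one_mul]
  rw [e, Bay.Ex, Bay.Ex, ← sum_add_distrib]
  refine sum_le_sum fun ω _ => ?_
  rw [← mul_add]
  refine mul_le_mul_of_nonneg_left (le_trans (le_add_of_nonneg_right ?_) (key ω B.T)) (B.p_pos ω).le
  exact sum_nonneg fun _ _ => dist_nonneg

end emb

end Vale.Agent.P304.Phys
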