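import Vale.Agent.P304.EmbDef
import Vale.Agent.P304.Frac
import Vale.Agent.P304.Round
import Vale.Agent.P304.PhysA

/-! From the embedding, the fractional allocation and the rounding to a deterministic policy. -/

namespace Vale.Agent.P304

open Finset

universe u

namespace Phys

variable {X Ω : Type u} [Fintype Ω] [MetricSpace X] [Fintype X] [DecidableEq X] {k : ℕ}
  {B : Bay X Ω k} {D : ℕ} {K : ℝ} (E : Emb B D K)

lemma shift_sum {Q : ℕ} {Z : List X → List (Option (Option X)) → ℕ} (Z1 : ∀ h, Z h [] = Q * k)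
    (Z4 : ∀ h v, ¬ Good D v → Z h v = 0)
    (Z5 : ∀ ω t a v, (Z (B.hist ω t) (some a :: v) : ℝ) ≤ 2 * Q * B.cE (B.hist ω t) fun ω' =>
      cnt (fun j => E.lab (B.hist ω t) (B.off ω' (B.hist ω t).length j)) (some a :: v)) :
    (B.Ex fun ω t => ∑ i ∈ range (E.L + 1), ∑ v ∈ nodes i,
      (Z (B.hist ω (t + 1)) v : ℝ) * sh E (B.hist ω t) (B.hist ω (t + 1)) v) ≤
      2 * Q * (K * B.M) := by
  classical
  refine le_trans ?_ (mul_le_mul_of_nonneg_left E.shift (by positivity))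
  rw [← B.Ex_mul, B.Ex_eq, B.Ex_eq]
  refine sum_le_sum fun t _ => ?_
  have := B.tower (t + 1)
    (fun h _ => ∑ i ∈ range (E.L + 1), ∑ v ∈ nodes i, (Z h v : ℝ) * sh E h.tail h v)
    (fun h ω => 2 * Q * ∑ i ∈ range (E.L + 1), ∑ j,
      if Good D (E.lab h (B.off ω h.length j) i) ∧ Top (E.lab h (B.off ω h.length j) i) then
        dist (E.cen h.tail (E.lab h (B.off ω h.length j) i))
          (E.cen h (E.lab h (B.off ω h.length j) i)) else 0) fun ω => ?_
  · simp only [Bay.hist_length] at this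
    exact this
  have p := B.W_one_pos ω (t + 1)
  have Z5 := Z5 ω (t + 1)
  generalize B.hist ω (t + 1) = h at *
  rw [B.W_mul, B.W_sum, B.W_sum, mul_sum]
  refine sum_le_sum fun i _ => ?_
  simp only [fun ω' => sum_cnt (fun j => E.lab h (B.off ω' h.length j)) (i := i)
    (fun j => lab_length E _ _ _)
    fun v => if Good D v ∧ Top v then dist (E.cen h.tail v) (E.cen h v) else 0]
  rw [B.W_sum, B.W_sum, mul_sum]
  refine sum_le_sum fun v _ => ?_
  simp only [mul_comm (Nat.cast (cnt _ v) : ℝ)]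
  rw [B.W_const, B.W_mul, sh]
  by_cases ht : Top v
  swap
  · simp [ht]
  by_cases hg : Good D v
  swap
  · simp [hg, Z4 h v hg]
  rw [if_pos ht, if_pos ⟨hg, ht⟩]
  have key : (Z h v : ℝ) * (B.W h fun _ => 1) ≤
      2 * Q * B.W h fun ω' => cnt (fun j => E.lab h (B.off ω' h.length j)) v := by
    rcases v with _ | ⟨_ | a, v⟩
    · simp only [Z1, cnt, List.length_nil, E.lab_zero, filter_true, card_univ, Fintype.card_fin]
      rw [B.W_const h k]
      push_cast
      nlinarith [mul_nonneg (mul_nonneg (Nat.cast_nonneg (α := ℝ) Q) (Nat.cast_nonneg k)) p.le]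
    · simp [Top] at ht
    · have := Z5 a v
      rwa [Bay.cE, ← mul_div_assoc, le_div_iff₀ p] at this
  nlinarith [mul_le_mul_of_nonneg_left key (dist_nonneg (x := E.cen h.tail v) (y := E.cen h v))]

/-- the total movement of the centres over all copies in one step -/
lemma step_sum {Q : ℕ} {V V' : Fin Q → Fin k → List (Option (Option X))}
    {Z Z' : List (Option (Option X)) → ℕ} (hV : Bal E.L V Z) (hV' : Bal E.L V' Z') (h h' : List X)
    (k1 : ∀ q j, ∀ i ≤ E.L, dist (E.cen h (V q j)) (E.cen h (anc i (V q j))) ≤ 3 * E.τ i)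
    (k2 : ∀ q j, ∀ i ≤ E.L, dist (E.cen h' (V' q j)) (E.cen h' (anc i (V' q j))) ≤ 3 * E.τ i) :
    ∑ q, ∑ j, dist (E.cen h (V q j)) (E.cen h' (V' q j)) ≤
      60 * ∑ i ∈ range (E.L + 1), E.τ i *
        ∑ q, (chg (fun j i => anc i (V q j)) (fun j i => anc i (V' q j)) i : ℝ) +
      ∑ i ∈ range (E.L + 1), ∑ v ∈ nodes i, (Z' v : ℝ) * sh E h h' v := by
  refine (sum_le_sum fun q _ => sum_le_sum fun j _ =>
    move_le E h h' (hV.1 q j) (hV'.1 q j) (k1 q j) (k2 q j)).trans (le_of_eq ?_)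
  simp only [sum_add_distrib]
  congr 1
  · simp only [mul_sum]
    rw [sum_comm (s := range (E.L + 1))]
    refine sum_congr rfl fun q _ => ?_
    rw [sum_comm]
    refine sum_congr rfl fun i _ => ?_
    rw [← mul_assoc, ← sum_ite_chg]
  · rw [sum_congr rfl fun q _ => sum_comm, sum_comm]
    refine sum_congr rfl fun i hi => ?_
    have hi : i ≤ E.L := Nat.lt_succ_iff.1 (mem_range.1 hi)
    rw [sum_congr rfl fun q _ => sum_cnt (fun j i => anc i (V' q j)) (i := i)
      (fun j => anc_length (by rw [hV'.1]; exact hi)) (sh E h h'), sum_comm]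
    refine sum_congr rfl fun v hv => ?_
    rw [← sum_mul, ← (hV'.2 v (by rw [mem_nodes.1 hv]; exact hi)).1]
    push_cast
    rfl

end Phys

open Phys in
theorem Emb.phys {X Ω : Type u} [Fintype Ω] [MetricSpace X] [Fintype X] [DecidableEq X] {k : ℕ}
    {B : Bay X Ω k} {D : ℕ} {K : ℝ} (E : Emb B D K) (hk : 0 < k) (hK : 0 ≤ K) (s : Fin k → X) :
    ∃ a : List X → Fin k,
      (B.Ex fun ω t => dist (B.conf a s ω t (a (B.hist ω (t + 1)))) (B.req ω t)) ≤
        400000 * (D + 1) * (1 + Real.log (2 * k)) * K * B.M + ∑ j, dist (s j) B.s0 + 1 := by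
  classical
  obtain ⟨Q, hQ0, hQ⟩ : ∃ Q : ℕ, 0 < Q ∧ 800 * ∑ i ∈ range E.L, E.τ (i + 1) *
      (B.T * ((nodes (Λ := Option (Option X)) (i + 1)).card : ℝ)) ≤ Q := by
    obtain ⟨n, hn⟩ := exists_nat_ge (800 * ∑ i ∈ range E.L, E.τ (i + 1) *
      (B.T * ((nodes (Λ := Option (Option X)) (i + 1)).card : ℝ)))
    exact ⟨n + 1, n.succ_pos, by push_cast; linarith⟩
  obtain ⟨Z, Z1, Z2, Z3, Z4, Z5, Z6⟩ := B.frac hk D Q (Good D) (by simp [Good])
    (fun _ _ => good_tail) (fun v hv => by simpa [Good] using hv) (fun v hv => hv.2)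
    (fun h ω j => E.lab h (B.off ω h.length j)) (fun _ _ _ => E.lab_zero _ _)
    (fun _ _ _ _ => E.lab_succ _ _ _) fun _ _ _ => E.lab_init _
  have nx : ∀ (V : Fin Q → Fin k → List (Option (Option X))) (h h' : List X),
      ∃ V' : Fin Q → Fin k → List (Option (Option X)), Bal E.L V (Z h) →
        (∀ v, Z h' v = ∑ a, Z h' (a :: v)) → Bal E.L V' (Z h') ∧
        ∑ i ∈ range (E.L + 1), E.τ i *
          ∑ q, (chg (fun j i => anc i (V q j)) (fun j i => anc i (V' q j)) i : ℝ) ≤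
        6 * ∑ i ∈ range (E.L + 1), E.τ i * ∑ v ∈ nodes i, |(Z h' v : ℝ) - Z h v| := by
    intro V h h'
    by_cases H : Bal E.L V (Z h) ∧ ∀ v, Z h' v = ∑ a, Z h' (a :: v)
    · obtain ⟨V', hV'⟩ := round_step H.1 (Z1 h') (fun v _ => H.2 v) E.τ (fun i => (E.τ_pos i).le)
        fun i => by linarith [E.τ_succ i, E.τ_pos (i + 1)]
      exact ⟨V', fun _ _ => hV'⟩
    · exact ⟨V, fun h1 h2 => absurd ⟨h1, h2⟩ H⟩
  choose nx hnx using nx
  obtain ⟨V, V0, Vs⟩ : ∃ V : List X → Fin Q → Fin k → List (Option (Option X)),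
      (V [] = fun _ _ => List.replicate E.L none) ∧ ∀ r h, V (r :: h) = nx (V h) h (r :: h) :=
    ⟨fun h => List.rec (fun _ _ => List.replicate E.L none) (fun r h W => nx W h (r :: h)) h,
      rfl, fun _ _ => rfl⟩
  have hbal : ∀ ω t, Bal E.L (V (B.hist ω t)) (Z (B.hist ω t)) := by
    intro ω t
    induction t with
    | zero =>
      rw [Bay.hist, V0]
      refine bal_init (Z1 _) (Z2 ω 0) fun a v => ?_
      have := Z5 ω 0 a v
      simp only [Bay.hist, List.length_nil, Bay.off, cnt, E.lab_init, List.length_cons,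
        List.replicate_succ] at this
      simpa [Bay.cE, Bay.W] using this
    | succ t ih =>
      rw [Bay.hist, Vs]
      exact (hnx _ _ _ ih (Z2 ω (t + 1))).1
  have hmv : ∀ ω t, ∑ i ∈ range (E.L + 1), E.τ i * ∑ q, (chg (fun j i => anc i (V (B.hist ω t) q j))
      (fun j i => anc i (V (B.hist ω (t + 1)) q j)) i : ℝ) ≤ 6 * ∑ i ∈ range (E.L + 1), E.τ i *
        ∑ v ∈ nodes i, |(Z (B.hist ω (t + 1)) v : ℝ) - Z (B.hist ω t) v| := by
    intro ω t
    rw [Bay.hist, Vs]
    exact (hnx _ _ _ (hbal ω t) (Z2 ω (t + 1))).2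
  have hK1 : ∀ ω t q j, ∀ i ≤ E.L, dist (E.cen (B.hist ω t) (V (B.hist ω t) q j))
      (E.cen (B.hist ω t) (anc i (V (B.hist ω t) q j))) ≤ 3 * E.τ i := by
    intro ω t q j i hi
    refine claimK E ω t ((hbal ω t).1 q j) (fun i a v hi e => ?_) hi
    have hp := Bal.pos (hbal ω t) q j hi
    have hl : (some a :: v).length = i := e ▸ anc_length (by rw [(hbal ω t).1]; exact hi)
    rw [e] at hp
    refine ⟨by_contra fun hg => hp.ne' (Z4 _ _ hg), ?_⟩
    by_contra! hc
    have h1 := Z5 ω t a v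
    have h2 := B.W_mono (h := B.hist ω t) (g := fun _ => 0) (f := fun ω' =>
      (cnt (fun j => E.lab (B.hist ω t) (B.off ω' (B.hist ω t).length j)) (some a :: v) : ℝ))
      fun ω' hω' => by
        rw [Nat.cast_nonpos, ← Nat.le_zero, ← not_lt, cnt_pos, hl]
        rw [B.hist_length] at hω' ⊢
        rintro ⟨j', hj'⟩
        exact hc ω' j' hω' hj'
    rw [B.W_const, zero_mul] at h2
    have h3 := mul_nonpos_of_nonneg_of_nonpos (show (0 : ℝ) ≤ 2 * Q by positivity)
      (div_nonpos_of_nonpos_of_nonneg h2 (B.W_one_pos ω t).le)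
    exact absurd (h1.trans h3) (by simpa using hp.ne')
  have hex : ∀ q (h : List X), ∃ j : Fin k, ∀ ω t, B.hist ω (t + 1) = h →
      V h q j = E.lab h (B.req ω t) E.L := by
    intro q h
    by_cases H : ∃ ω t, B.hist ω (t + 1) = h
    · obtain ⟨ω, t, rfl⟩ := H
      have hreq : ∀ ω' t', B.hist ω' (t' + 1) = B.hist ω (t + 1) → B.req ω' t' = B.req ω t :=
        fun ω' t' e => (List.cons.inj e).1
      obtain ⟨j, hj⟩ := Bal.exists_eq (hbal ω (t + 1)) (lab_length E _ (B.req ω t) _)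
        (Z3 ω (t + 1) _ (E.req_good ω t) fun ω' e => ⟨B.ch ω' t, by
          rw [lab_length, B.hist_length, Bay.off, Function.update_self, hreq ω' t e]⟩) q
      exact ⟨j, fun ω' t' e => by rw [hj, hreq ω' t' e]⟩
    · exact ⟨⟨0, hk⟩, fun ω t e => absurd ⟨ω, t, e⟩ H⟩
  choose a ha using hex
  have hcost := fun q => cost_le (B := B) (a q) s (fun h j => E.cen h (V h q j))
    (fun j => by
      rw [V0, ← E.cen_init]
      induction E.L with
      | zero => rfl
      | succ n ih => rw [List.replicate_succ, E.cen_star]; exact ih)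
    fun ω t => by rw [ha q _ ω t rfl, E.req_cen]
  have hM : 0 ≤ K * B.M := mul_nonneg hK (B.Ex_nonneg fun _ _ => dist_nonneg)
  have hlog : 0 ≤ Real.log (2 * k) := Real.log_nonneg (by
    have : (1 : ℝ) ≤ k := by exact_mod_cast hk
    linarith)
  obtain ⟨c, hc⟩ : ∃ c : ℝ, c = (D + 1) * (1 + Real.log (2 * k)) := ⟨_, rfl⟩
  have hc1 : 1 ≤ c := by
    rw [hc]
    exact one_le_mul_of_one_le_of_one_le (by simp) (by linarith)
  have hQ' : (0 : ℝ) < Q := by exact_mod_cast hQ0
  have s1 : (B.Ex fun ω t => ∑ i ∈ range E.L, E.τ (i + 1) * ∑ v ∈ nodes i, ∑ a,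
      |(Z (B.hist ω (t + 1)) (some a :: v) : ℝ) - Z (B.hist ω t) (some a :: v)|) ≤
      Q * (336 * c) * (K * B.M) + Q / 800 := by
    have e1 := E.cost
    rw [sum_range_succ'] at e1
    have e2 := mul_nonneg (E.τ_pos 0).le (B.Ex_nonneg (f := fun ω t =>
      chg (fun j => E.lab (B.hist ω t) (B.off ω t j))
        (fun j => E.lab (B.hist ω (t + 1)) (B.off ω (t + 1) j)) 0) fun _ _ => Nat.cast_nonneg _)
    have e3 := mul_le_mul_of_nonneg_left (le_trans (le_add_of_nonneg_right e2) e1)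
      (show 0 ≤ Q * (336 * c) by positivity)
    rw [B.Ex_sum]
    simp only [B.Ex_mul]
    refine (sum_le_sum fun i _ => mul_le_mul_of_nonneg_left (Z6 i) (E.τ_pos _).le).trans ?_
    simp only [mul_add, sum_add_distrib, B.hist_length]
    refine add_le_add (le_trans (le_of_eq ?_) e3) (by linarith)
    rw [mul_sum]
    exact sum_congr rfl fun i _ => by rw [hc]; ring
  have s2 := shift_sum E Z1 Z4 Z5
  have s3 : ∑ q, (B.Ex fun ω t => ∑ j, dist (E.cen (B.hist ω t) (V (B.hist ω t) q j))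
      (E.cen (B.hist ω (t + 1)) (V (B.hist ω (t + 1)) q j))) ≤
      800 * (Q * (336 * c) * (K * B.M) + Q / 800) + 2 * Q * (K * B.M) := by
    refine le_trans ?_ (add_le_add (mul_le_mul_of_nonneg_left s1 (by norm_num)) s2)
    rw [← B.Ex_sum, ← B.Ex_mul, ← B.Ex_add]
    refine B.Ex_mono fun ω t => ?_
    have a1 := step_sum E (hbal ω t) (hbal ω (t + 1)) _ _ (hK1 ω t) (hK1 ω (t + 1))
    have a2 := hmv ω t
    have a3 := delta_le ((Z1 (B.hist ω (t + 1))).trans (Z1 (B.hist ω t)).symm) (Z2 ω t)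
      (Z2 ω (t + 1)) E.τ_pos E.τ_succ E.L
    linarith
  have : Nonempty (Fin Q) := ⟨⟨0, hQ0⟩⟩
  obtain ⟨q, -, hq⟩ := exists_le_of_sum_le (s := (univ : Finset (Fin Q))) univ_nonempty
    (f := fun q => B.Ex fun ω t => dist (B.conf (a q) s ω t (a q (B.hist ω (t + 1)))) (B.req ω t))
    (g := fun _ => 400000 * c * (K * B.M) + ∑ j, dist (s j) B.s0 + 1) (by
      refine (sum_le_sum fun q _ => hcost q).trans ?_
      rw [sum_add_distrib]
      simp only [sum_const, card_univ, Fintype.card_fin, nsmul_eq_mul]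
      nlinarith [mul_nonneg (mul_nonneg hQ'.le hM) (sub_nonneg.2 hc1), mul_nonneg hQ'.le hM])
  exact ⟨a q, hq.trans (le_of_eq (by rw [hc]; ring))⟩

end Vale.Agent.P304
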