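import Vale.Agent.P304.Minimax
import Vale.Agent.P304.Phys
import Vale.Agent.P304.Embed

/-! Final assembly. -/

namespace Vale.Agent.P304

universe u

namespace Gl

open Finset Function

variable {X : Type u} [MetricSpace X] {k : ℕ}

theorem opt_le (c : Fin k → X) (r : X) (rest : List X) (j : Fin k) :
    opt c (r :: rest) ≤ dist (c j) r + opt (update c j r) rest := by
  rw [opt]
  exact ciInf_le (Set.finite_range _).bddBelow j

theorem opt_att (hk : 0 < k) (c : Fin k → X) (r : X) (rest : List X) :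
    ∃ j, dist (c j) r + opt (update c j r) rest = opt c (r :: rest) := by
  have : Nonempty (Fin k) := ⟨⟨0, hk⟩⟩
  rw [opt]
  exact exists_eq_ciInf_of_finite

theorem opt_nonneg (hk : 0 < k) (σ : List X) : ∀ c : Fin k → X, 0 ≤ opt c σ := by
  induction σ with
  | nil => intro c; simp [opt]
  | cons r rest ih =>
    intro c
    obtain ⟨j, hj⟩ := opt_att hk c r rest
    rw [← hj]
    exact add_nonneg dist_nonneg (ih _)

theorem opt_lip (hk : 0 < k) (σ : List X) : ∀ c c' : Fin k → X,
    opt c σ ≤ opt c' σ + ∑ j, dist (c' j) (c j) := by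
  induction σ with
  | nil => intro c c'; simp only [opt, zero_add]; exact sum_nonneg fun _ _ => dist_nonneg
  | cons r rest ih =>
    intro c c'
    obtain ⟨j, hj⟩ := opt_att hk c' r rest
    have h1 := opt_le c r rest j
    have h2 := ih (update c j r) (update c' j r)
    have h3 : ∑ i, dist (update c' j r i) (update c j r i) + dist (c' j) (c j)
        = ∑ i, dist (c' i) (c i) := by
      rw [← add_sum_erase _ _ (mem_univ j), ← add_sum_erase _ _ (mem_univ j), update_self,
        update_self, dist_self, zero_add, add_comm]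
      congr 1
      exact sum_congr rfl fun i hi => by
        rw [update_of_ne (ne_of_mem_erase hi), update_of_ne (ne_of_mem_erase hi)]
    have h4 := dist_triangle_left (c j) r (c' j)
    linarith

/-- offline configuration for given request and choice sequences -/
def offc (c : Fin k → X) (req : ℕ → X) (ch : ℕ → Fin k) : ℕ → Fin k → X
  | 0 => c
  | t + 1 => update (offc c req ch t) (ch t) (req t)

theorem sched (hk : 0 < k) (σ : List X) : ∀ c : Fin k → X, ∃ (req : ℕ → X) (ch : ℕ → Fin k),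
    (∀ i (h : i < σ.length), req i = σ[i]) ∧
      ∀ T, ∑ t ∈ range T, dist (offc c req ch t (ch t)) (req t) ≤ opt c σ := by
  induction σ with
  | nil =>
    intro c
    refine ⟨fun _ => c ⟨0, hk⟩, fun _ => ⟨0, hk⟩, fun i h => absurd h (by simp), fun T => ?_⟩
    have h1 : ∀ t, offc c (fun _ => c ⟨0, hk⟩) (fun _ => ⟨0, hk⟩) t = c := by
      intro t
      induction t with
      | zero => rfl
      | succ t ih => rw [offc, ih, update_eq_self]
    simp [h1, opt]
  | cons r rest ih =>
    intro c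
    obtain ⟨j, hj⟩ := opt_att hk c r rest
    obtain ⟨req, ch, h1, h2⟩ := ih (update c j r)
    refine ⟨fun t => Nat.casesOn t r req, fun t => Nat.casesOn t j ch, fun i h => ?_, fun T => ?_⟩
    · cases i with
      | zero => rfl
      | succ i => exact h1 i (by simpa using h)
    · have h3 : ∀ t, offc c (fun t => Nat.casesOn t r req) (fun t => Nat.casesOn t j ch) (t + 1)
          = offc (update c j r) req ch t := by
        intro t
        induction t with
        | zero => rfl
        | succ t ih => rw [offc, ih]; rfl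
      cases T with
      | zero => simpa using opt_nonneg hk _ c
      | succ T =>
        rw [sum_range_succ', ← hj, add_comm]
        simp only [h3]
        exact add_le_add le_rfl (h2 T)

theorem dcost_eq {Ω : Type u} [Fintype Ω] (B : Bay X Ω k) (a : List X → Fin k) (s : Fin k → X)
    (ω : Ω) (n : ℕ) : ∀ t, dcost a (B.conf a s ω t) (B.hist ω t) ((List.range' t n).map (B.req ω))
      = ∑ i ∈ range n,
        dist (B.conf a s ω (t + i) (a (B.hist ω (t + i + 1)))) (B.req ω (t + i)) := by
  induction n with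
  | zero => intro t; simp [dcost]
  | succ n ih =>
    intro t
    have h1 := ih (t + 1)
    rw [List.range'_succ, List.map_cons, dcost, sum_range_succ', add_comm]
    refine congrArg₂ (· + ·) (h1.trans (sum_congr rfl fun i _ => ?_)) rfl
    rw [add_right_comm t 1 i, add_assoc t i 1]

theorem consts (hk : 2 ≤ k) :
    400000 * (((2 * Nat.log 2 k + 1 : ℕ) : ℝ) + 1) * (1 + Real.log (2 * k))
      * (10 ^ 7 * (((2 * Nat.log 2 k + 1 : ℕ) : ℝ) + 1) * (Nat.log 2 k + 1))
      ≤ 10 ^ 16 * Real.log k ^ 4 := by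
  have hk' : (2 : ℝ) ≤ k := by exact_mod_cast hk
  have h2 := Real.log_two_gt_d9
  have h3 : Real.log 2 ≤ Real.log k := Real.log_le_log (by norm_num) hk'
  have h4 : (Nat.log 2 k : ℝ) * Real.log 2 ≤ Real.log k := by
    rw [← Real.log_pow]
    refine Real.log_le_log (by positivity) ?_
    exact_mod_cast Nat.pow_log_le_self 2 (by omega : k ≠ 0)
  have h0 : (0 : ℝ) ≤ Nat.log 2 k := by positivity
  have h5 : (Nat.log 2 k : ℝ) + 1 ≤ 3 * Real.log k := by nlinarith
  have h6 : 1 + Real.log (2 * k) ≤ 4 * Real.log k := by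
    rw [Real.log_mul (by norm_num) (by positivity)]; linarith
  have h7 : 0 ≤ 1 + Real.log (2 * k) := by
    have := Real.log_nonneg (by linarith : (1 : ℝ) ≤ 2 * k); linarith
  have h8 : ((Nat.log 2 k : ℝ) + 1) ^ 3 ≤ (3 * Real.log k) ^ 3 :=
    pow_le_pow_left₀ (by positivity) h5 3
  have h9 : ((Nat.log 2 k : ℝ) + 1) ^ 3 * (1 + Real.log (2 * k))
      ≤ (3 * Real.log k) ^ 3 * (4 * Real.log k) :=
    mul_le_mul h8 h6 h7 (le_trans (by positivity) h8)
  have h10 : 0 ≤ Real.log k ^ 4 := by positivity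
  push_cast
  nlinarith

theorem depth_ok (k : ℕ) : (k : ℝ) * (2 / 3) ^ (2 * Nat.log 2 k + 1 + 1) < 1 := by
  have h1 : (k : ℝ) < 2 ^ (Nat.log 2 k + 1) := by
    exact_mod_cast Nat.lt_pow_succ_log_self (by norm_num : 1 < 2) k
  have h2 : ((2 / 3 : ℝ)) ^ (2 * Nat.log 2 k + 1 + 1) ≤ (1 / 2) ^ (Nat.log 2 k + 1) := by
    rw [show 2 * Nat.log 2 k + 1 + 1 = 2 * (Nat.log 2 k + 1) by ring, pow_mul]
    exact pow_le_pow_left₀ (by norm_num) (by norm_num) _
  calc (k : ℝ) * (2 / 3) ^ (2 * Nat.log 2 k + 1 + 1) ≤ k * (1 / 2) ^ (Nat.log 2 k + 1) :=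
        mul_le_mul_of_nonneg_left h2 (by positivity)
    _ < 2 ^ (Nat.log 2 k + 1) * (1 / 2) ^ (Nat.log 2 k + 1) :=
        mul_lt_mul_of_pos_right h1 (by positivity)
    _ = 1 := by rw [← mul_pow]; norm_num

theorem fin_case {Ω : Type u} [Fintype Ω] [Fintype X] (hk : 2 ≤ k) (p : Ω → ℝ)
    (hp : ∀ ω, 0 < p ω) (hs : ∑ ω, p ω = 1) (σ : Ω → List X) (s : Fin k → X) (s0 : X) :
    ∃ a : List X → Fin k, ∑ ω, p ω * dcost a s [] (σ ω)
      ≤ 10 ^ 16 * Real.log k ^ 4 * (∑ ω, p ω * opt s (σ ω) + ∑ j, dist (s j) s0)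
        + ∑ j, dist (s j) s0 + 1 := by
  classical
  have hk0 : 0 < k := by omega
  choose req ch h1 h2 using fun ω => sched hk0 (σ ω) fun _ => s0
  let B : Bay X Ω k := ⟨p, hp, hs, univ.sup fun ω => (σ ω).length, req, ch, s0⟩
  obtain ⟨E⟩ := B.emb hk0 (2 * Nat.log 2 k + 1) (depth_ok k)
  obtain ⟨a, ha⟩ := E.phys hk0 (by positivity) s
  refine ⟨a, ?_⟩
  have hoff : ∀ ω t, B.off ω t = offc (fun _ => s0) (req ω) (ch ω) t := by
    intro ω t
    induction t with
    | zero => rfl
    | succ t ih => rw [Bay.off, offc, ih]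
  have hM : B.M ≤ ∑ ω, p ω * opt s (σ ω) + ∑ j, dist (s j) s0 := by
    have h3 : ∑ j, dist (s j) s0 = ∑ ω, p ω * ∑ j, dist (s j) s0 := by
      rw [← sum_mul, hs, one_mul]
    rw [h3, ← sum_add_distrib]
    refine sum_le_sum fun ω _ => ?_
    rw [← mul_add]
    refine mul_le_mul_of_nonneg_left ?_ (hp ω).le
    simp only [hoff]
    exact (h2 ω _).trans (opt_lip hk0 _ _ s)
  have hM0 : 0 ≤ B.M := B.Ex_nonneg fun _ _ => dist_nonneg
  have hd : ∑ ω, p ω * dcost a s [] (σ ω)
      ≤ B.Ex fun ω t => dist (B.conf a s ω t (a (B.hist ω (t + 1)))) (B.req ω t) := by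
    refine sum_le_sum fun ω _ => mul_le_mul_of_nonneg_left ?_ (hp ω).le
    have e : σ ω = (List.range' 0 (σ ω).length).map (B.req ω) := by
      refine List.ext_getElem (by simp) fun i h _ => ?_
      simpa using (h1 ω i h).symm
    have h3 := dcost_eq B a s ω (σ ω).length 0
    rw [← e] at h3
    simp only [zero_add] at h3
    refine h3.le.trans (sum_le_sum_of_subset_of_nonneg ?_ fun _ _ _ => dist_nonneg)
    exact range_subset_range.2 (le_sup (f := fun ω => (σ ω).length) (mem_univ ω))
  have h4 := mul_le_mul (consts hk) hM hM0 (by positivity)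
  have h5 : B.s0 = s0 := rfl
  rw [h5] at ha
  linarith

section transfer

variable {Y : Type u} [MetricSpace Y] {ι : Y → X} (hι : ∀ y z, dist (ι y) (ι z) = dist y z)

include hι

theorem opt_map (σ : List Y) : ∀ c : Fin k → Y, opt (ι ∘ c) (σ.map ι) = opt c σ := by
  induction σ with
  | nil => intro c; simp [opt]
  | cons r rest ih =>
    intro c
    simp only [List.map_cons, opt, comp_apply, hι, ← comp_update, ih]

theorem dcost_map {ρ : X → Y} (hρ : ∀ y, ρ (ι y) = y) (a : List Y → Fin k) (σ : List Y) :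
    ∀ (c : Fin k → Y) (past : List Y),
      dcost (fun h => a (h.map ρ)) (ι ∘ c) (past.map ι) (σ.map ι) = dcost a c past σ := by
  induction σ with
  | nil => intro c past; simp [dcost]
  | cons r rest ih =>
    intro c past
    have e : (past.map ι).map ρ = past := by
      rw [List.map_map, show ρ ∘ ι = id from funext hρ, List.map_id]
    have h1 := ih (update c (a (r :: past)) r) (r :: past)
    simp only [List.map_cons, dcost, comp_apply, hι, hρ, e, ← comp_update] at h1 ⊢
    rw [h1]

end transfer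

end Gl

open Gl Finset in
theorem main : ∃ C : ℝ, ∀ k : ℕ, 2 ≤ k → ∀ (X : Type u) [MetricSpace X] (s : Fin k → X),
    ∃ (A : Policy X k) (B : ℝ), ∀ σ : List X,
      ecost A s [] [] σ ≤ C * Real.log k ^ 4 * opt s σ + B := by
  classical
  refine ⟨10 ^ 16, fun k hk X _ s => ?_⟩
  have hk0 : 0 < k := by omega
  set d : ℝ := ∑ j, dist (s j) (s ⟨0, hk0⟩) with hd
  obtain ⟨A, hA⟩ := minimax hk0 s
    (fun σ => 10 ^ 16 * Real.log k ^ 4 * opt s σ + (10 ^ 16 * Real.log k ^ 4 * d + d + 1))
    fun F p hp hs => by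
      let S : Finset X := univ.image s ∪ F.biUnion List.toFinset
      have hS : ∀ j, s j ∈ S := fun j => mem_union_left _ (mem_image_of_mem _ (mem_univ j))
      let s' : Fin k → S := fun j => ⟨s j, hS j⟩
      let ρ : X → S := fun x => if h : x ∈ S then ⟨x, h⟩ else s' ⟨0, hk0⟩
      have hρ : ∀ y : S, ρ y.1 = y := fun y => dif_pos y.2
      have hι : ∀ y z : S, dist y.1 z.1 = dist y z := fun _ _ => rfl
      have hσ : ∀ σ ∈ F, (σ.map ρ).map Subtype.val = σ := by
        intro σ hσ
        rw [List.map_map]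
        refine (List.map_congr_left fun x hx => ?_).trans (List.map_id σ)
        have hx' : x ∈ S :=
          mem_union_right _ (mem_biUnion.2 ⟨σ, hσ, List.mem_toFinset.2 hx⟩)
        exact congrArg Subtype.val (hρ ⟨x, hx'⟩)
      obtain ⟨a, ha⟩ := fin_case (X := S) (Ω := F) hk (fun ω => p ω) (fun ω => hp ω ω.2)
        (by rw [sum_coe_sort F p, hs]) (fun ω => ω.1.map ρ) s' (s' ⟨0, hk0⟩)
      refine ⟨fun h => a (h.map ρ), ?_⟩
      have e1 : ∀ ω : F, dcost a s' [] (ω.1.map ρ) = dcost (fun h => a (h.map ρ)) s [] ω.1 := by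
        intro ω
        rw [← dcost_map hι hρ, hσ _ ω.2]; rfl
      have e2 : ∀ ω : F, opt s' (ω.1.map ρ) = opt s ω.1 := by
        intro ω
        rw [← opt_map hι, hσ _ ω.2]; rfl
      have e3 : ∑ j, dist (s' j) (s' ⟨0, hk0⟩) = d := rfl
      simp only [e1, e2, e3] at ha
      rw [sum_coe_sort F fun σ => p σ * dcost (fun h => a (h.map ρ)) s [] σ,
        sum_coe_sort F fun σ => p σ * opt s σ] at ha
      refine ha.trans (le_of_eq ?_)
      simp only [mul_add, sum_add_distrib, ← sum_mul, hs, mul_left_comm (p _), ← mul_sum]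
      ring
  exact ⟨A, _, hA⟩

end Vale.Agent.P304
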