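import Vale.Agent.P304.Base

/-! From known input laws to one randomized policy. -/

namespace Vale.Agent.P304

universe u

namespace Mm

open Finset Function

variable {X : Type u} {k : ℕ}

/-- realization plans -/
abbrev Plan (X : Type u) (k : ℕ) := List X × List (Fin k) → ℝ

/-- the linear form of the expected cost -/
noncomputable def val [MetricSpace X] (P : Plan X k) :
    (Fin k → X) → List X → List (Fin k) → List X → ℝ
  | _, _, _, [] => 0
  | s, past, ch, r :: rest => ∑ j, (P (r :: past, j :: ch) * dist (s j) r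
      + val P (update s j r) (r :: past) (j :: ch) rest)

def KK (X : Type u) (k : ℕ) : Set (Plan X k) :=
  {P | (∀ q, P q ∈ Set.Icc (0 : ℝ) 1) ∧ P ([], []) = 1 ∧
    ∀ r h c, ∑ j, P (r :: h, j :: c) = P (h, c)}

theorem KK_compact : IsCompact (KK X k) := by
  have h1 : IsCompact (Set.pi Set.univ fun _ : List X × List (Fin k) => Set.Icc (0 : ℝ) 1) :=
    isCompact_univ_pi fun _ => isCompact_Icc
  have h2 : IsClosed {P : Plan X k | P ([], []) = 1 ∧
      ∀ r h c, ∑ j, P (r :: h, j :: c) = P (h, c)} := by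
    simp only [Set.ofPred_and, Set.ofPred_forall]
    refine (isClosed_eq (by fun_prop) (by fun_prop)).inter ?_
    exact isClosed_iInter fun r => isClosed_iInter fun h => isClosed_iInter fun c =>
      isClosed_eq (by fun_prop) (by fun_prop)
  have e : KK X k = (Set.pi Set.univ fun _ : List X × List (Fin k) => Set.Icc (0 : ℝ) 1) ∩
      {P : Plan X k | P ([], []) = 1 ∧ ∀ r h c, ∑ j, P (r :: h, j :: c) = P (h, c)} := by
    ext P
    exact ⟨fun h => ⟨fun q _ => h.1 q, h.2⟩, fun h => ⟨fun q => h.1 q trivial, h.2⟩⟩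
  rw [e]; exact h1.inter_right h2

theorem KK_convex : Convex ℝ (KK X k) := by
  rintro P ⟨p1, p2, p3⟩ R ⟨r1, r2, r3⟩ a b ha hb hab
  refine ⟨fun q => convex_Icc (0 : ℝ) 1 (p1 q) (r1 q) ha hb hab, ?_, fun r h c => ?_⟩
  · simp [p2, r2, hab]
  · simp only [Pi.add_apply, Pi.smul_apply, smul_eq_mul, sum_add_distrib, ← mul_sum, p3, r3]

variable [MetricSpace X]

theorem val_lin (P R : Plan X k) (a b : ℝ) (rest : List X) : ∀ s past ch,
    val (a • P + b • R) s past ch rest = a * val P s past ch rest + b * val R s past ch rest := by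
  induction rest with
  | nil => intro s past ch; simp [val]
  | cons r rest ih =>
    intro s past ch
    simp only [val, ih, mul_sum, ← sum_add_distrib, Pi.add_apply, Pi.smul_apply, smul_eq_mul]
    exact sum_congr rfl fun j _ => by ring

theorem val_cont (rest : List X) : ∀ s past ch,
    Continuous fun P : Plan X k => val P s past ch rest := by
  induction rest with
  | nil => intro s past ch; simp only [val]; exact continuous_const
  | cons r rest ih =>
    intro s past ch
    simp only [val]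
    exact continuous_finsetSum _ fun j _ => Continuous.add (by fun_prop) (ih _ _ _)

/-- the choices of a deterministic policy -/
def chs (a : List X → Fin k) : List X → List (Fin k)
  | [] => []
  | r :: h => a (r :: h) :: chs a h

/-- the plan of a deterministic policy -/
noncomputable def det (a : List X → Fin k) : Plan X k :=
  fun q => if q.2 = chs a q.1 then 1 else 0

omit [MetricSpace X] in
theorem det_mem (a : List X → Fin k) : det a ∈ KK X k := by
  refine ⟨fun q => ?_, by simp [det, chs], fun r h c => ?_⟩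
  · unfold det; split_ifs <;> simp
  · by_cases hc : c = chs a h <;> simp [det, chs, hc]

theorem val_det (a : List X → Fin k) (rest : List X) : ∀ s past ch,
    val (det a) s past ch rest = det a (past, ch) * dcost a s past rest := by
  induction rest with
  | nil => intro s past ch; simp [val, dcost]
  | cons r rest ih =>
    intro s past ch
    simp only [val, ih, dcost]
    by_cases hc : ch = chs a past
    · rw [sum_eq_single (a (r :: past))]
      · simp [det, chs, hc]
      · intro j _ hj; simp [det, chs, hj]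
      · simp
    · simp [det, chs, hc]

omit [MetricSpace X] in
theorem exists_policy (hk : 0 < k) {P : Plan X k} (hP : P ∈ KK X k) :
    ∃ A : Policy X k, ∀ r h c j, P (h, c) * (A (r :: h) c j).toReal = P (r :: h, j :: c) := by
  obtain ⟨p1, -, p3⟩ := hP
  have key : ∀ r h c, ∃ μ : PMF (Fin k), ∀ j, P (h, c) * (μ j).toReal = P (r :: h, j :: c) := by
    intro r h c
    rcases (p1 (h, c)).1.eq_or_lt with h0 | h0
    · refine ⟨PMF.pure ⟨0, hk⟩, fun j => ?_⟩
      have h1 := p3 r h c
      rw [← h0] at h1 ⊢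
      rw [(sum_eq_zero_iff_of_nonneg fun j _ => (p1 _).1).1 h1 j (mem_univ j), zero_mul]
    · refine ⟨PMF.ofFintype (fun j => ENNReal.ofReal (P (r :: h, j :: c) / P (h, c))) ?_,
        fun j => ?_⟩
      · rw [← ENNReal.ofReal_sum_of_nonneg fun j _ => div_nonneg (p1 _).1 h0.le, ← sum_div, p3,
          div_self h0.ne', ENNReal.ofReal_one]
      · rw [PMF.ofFintype_apply, ENNReal.toReal_ofReal (div_nonneg (p1 _).1 h0.le),
          mul_div_cancel₀ _ h0.ne']
  choose μ hμ using key
  exact ⟨fun h c => match h with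
    | [] => PMF.pure ⟨0, hk⟩
    | r :: h => μ r h c, fun r h c j => hμ r h c j⟩

theorem val_policy {P : Plan X k} {A : Policy X k}
    (hA : ∀ r h c j, P (h, c) * (A (r :: h) c j).toReal = P (r :: h, j :: c)) (rest : List X) :
    ∀ s past ch, val P s past ch rest = P (past, ch) * ecost A s past ch rest := by
  induction rest with
  | nil => intro s past ch; simp [val, ecost]
  | cons r rest ih =>
    intro s past ch
    simp only [val, ih, ecost, mul_sum]
    exact sum_congr rfl fun j _ => by rw [← mul_assoc, hA]; ring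

theorem finite_case (hk : 0 < k) (s : Fin k → X) (f : List X → ℝ)
    (h : ∀ (F : Finset (List X)) (p : List X → ℝ), (∀ σ ∈ F, 0 < p σ) → ∑ σ ∈ F, p σ = 1 →
      ∃ a : List X → Fin k, ∑ σ ∈ F, p σ * dcost a s [] σ ≤ ∑ σ ∈ F, p σ * f σ)
    (F : Finset (List X)) : ∃ P ∈ KK X k, ∀ σ ∈ F, val P s [] [] σ ≤ f σ := by
  classical
  by_contra hne
  set Φ : Plan X k → (F → ℝ) := fun P σ => val P s [] [] σ - f σ with hΦ
  have hc : IsCompact (Φ '' KK X k) :=
    KK_compact.image (continuous_pi fun σ => (val_cont _ _ _ _).sub continuous_const)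
  have hv : Convex ℝ (Φ '' KK X k) := by
    rintro _ ⟨P, hP, rfl⟩ _ ⟨R, hR, rfl⟩ a b ha hb hab
    refine ⟨a • P + b • R, KK_convex hP hR ha hb hab, ?_⟩
    funext σ
    simp only [hΦ, val_lin, Pi.add_apply, Pi.smul_apply, smul_eq_mul]
    linear_combination (f σ) * hab
  have hd : Disjoint (Φ '' KK X k) (Set.Iic 0) := by
    rw [Set.disjoint_left]
    rintro _ ⟨P, hP, rfl⟩ h0
    exact hne ⟨P, hP, fun σ hσ => sub_nonpos.1 (h0 ⟨σ, hσ⟩)⟩
  obtain ⟨g, u, v, g1, huv, g2⟩ :=
    geometric_hahn_banach_compact_closed hv hc (convex_Iic 0) isClosed_Iic hd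
  have hv0 : v < 0 := by simpa using g2 0 (by simp)
  have hg : ∀ σ : F, g (Pi.single σ 1) ≤ 0 := by
    intro σ
    by_contra hpos
    push Not at hpos
    have h1 := g2 ((v / g (Pi.single σ 1)) • Pi.single σ 1) (by
      intro τ
      have : v / g (Pi.single σ 1) ≤ 0 := div_nonpos_of_nonpos_of_nonneg hv0.le hpos.le
      by_cases e : τ = σ
      · subst e; simpa using this
      · simp [e])
    rw [map_smul, smul_eq_mul, div_mul_cancel₀ _ hpos.ne'] at h1
    exact lt_irrefl _ h1
  set p : List X → ℝ := fun σ => if hσ : σ ∈ F then -g (Pi.single ⟨σ, hσ⟩ 1) else 0 with hp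
  have hp0 : ∀ σ, 0 ≤ p σ := by
    intro σ
    simp only [hp]
    split_ifs with hσ
    · exact neg_nonneg.2 (hg _)
    · exact le_rfl
  have hpos : ∀ a : List X → Fin k, 0 < ∑ σ ∈ F, p σ * (dcost a s [] σ - f σ) := by
    intro a
    have h1 := g1 _ ⟨det a, det_mem a, rfl⟩
    have h2 : g (Φ (det a)) = -∑ σ ∈ F, p σ * (dcost a s [] σ - f σ) := by
      conv_lhs => rw [pi_eq_sum_univ' (Φ (det a))]
      rw [map_sum, ← sum_coe_sort F, ← sum_neg_distrib]
      refine sum_congr rfl fun σ _ => ?_
      have e : det a ([], []) = 1 := (det_mem a).2.1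
      simp only [map_smul, smul_eq_mul, hΦ, hp, val_det, e, dif_pos σ.2, Subtype.coe_eta]
      ring
    linarith
  have hS : ∀ G : List X → ℝ, ∑ σ ∈ F with 0 < p σ, p σ * G σ = ∑ σ ∈ F, p σ * G σ := by
    intro G
    refine sum_filter_of_ne fun σ _ hσ => lt_of_le_of_ne (hp0 σ) fun e => hσ ?_
    rw [← e, zero_mul]
  have hsum : 0 < ∑ σ ∈ F, p σ := by
    rcases (sum_nonneg fun σ _ => hp0 σ : 0 ≤ ∑ σ ∈ F, p σ).eq_or_lt with h0 | h0
    · have h1 := hpos fun _ => ⟨0, hk⟩
      rw [sum_eq_zero fun σ hσ => by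
        rw [(sum_eq_zero_iff_of_nonneg fun σ _ => hp0 σ).1 h0.symm σ hσ, zero_mul]] at h1
      exact absurd h1 (lt_irrefl _)
    · exact h0
  obtain ⟨a, ha⟩ := h (F.filter fun σ => 0 < p σ) (fun σ => p σ / ∑ τ ∈ F, p τ)
    (fun σ hσ => div_pos (mem_filter.1 hσ).2 hsum) (by
      have h1 := hS fun _ => 1
      simp only [mul_one] at h1
      rw [← sum_div, h1, div_self hsum.ne'])
  simp only [div_mul_eq_mul_div, ← sum_div] at ha
  rw [div_le_div_iff_of_pos_right hsum, hS, hS] at ha
  have h1 := hpos a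
  simp only [mul_sub, sum_sub_distrib] at h1
  linarith

end Mm

open Mm in
theorem minimax {X : Type u} [MetricSpace X] {k : ℕ} (hk : 0 < k) (s : Fin k → X) (f : List X → ℝ)
    (h : ∀ (F : Finset (List X)) (p : List X → ℝ), (∀ σ ∈ F, 0 < p σ) → ∑ σ ∈ F, p σ = 1 →
      ∃ a : List X → Fin k, ∑ σ ∈ F, p σ * dcost a s [] σ ≤ ∑ σ ∈ F, p σ * f σ) :
    ∃ A : Policy X k, ∀ σ, ecost A s [] [] σ ≤ f σ := by
  obtain ⟨P, hP, h1⟩ := (KK_compact (X := X) (k := k)).inter_iInter_nonempty
    (fun σ : List X => {P | val P s [] [] σ ≤ f σ})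
    (fun σ => isClosed_le (val_cont _ _ _ _) continuous_const) fun F => by
      obtain ⟨P, hP, h1⟩ := finite_case hk s f h F
      exact ⟨P, hP, Set.mem_iInter₂.2 h1⟩
  obtain ⟨A, hA⟩ := exists_policy hk hP
  refine ⟨A, fun σ => ?_⟩
  have h2 : val P s [] [] σ ≤ f σ := Set.mem_iInter.1 h1 σ
  rwa [val_policy hA, hP.2.1, one_mul] at h2

end Vale.Agent.P304
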