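import Vale.Agent.P304.Base

/-! Star lemma for the online rounding. -/

namespace Vale.Agent.P304.RoundA

open Finset

variable {ι Λ : Type*} [Fintype ι] [DecidableEq ι] [Fintype Λ] [DecidableEq Λ]

/-- entries differ by at most one -/
def Bl (a : ι → ℤ) : Prop := ∀ i j, a i ≤ a j + 1

/-- indicator of one cell -/
def e (i : ι) (x : Λ) (q : ι) (y : Λ) : ℤ := if q = i ∧ y = x then 1 else 0

omit [Fintype ι] in
theorem e_row (i : ι) (x : Λ) (q : ι) : ∑ y, e i x q y = if q = i then 1 else 0 := by
  by_cases h : q = i <;> simp [e, h]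

omit [Fintype Λ] in
theorem e_col (i : ι) (x : Λ) (y : Λ) : ∑ q, e i x q y = if y = x then 1 else 0 := by
  by_cases h : y = x <;> simp [e, h]

theorem e_tot (i : ι) (x : Λ) : ∑ q, ∑ y, e i x q y = 1 := by
  simp [e_row]

omit [Fintype ι] [Fintype Λ] in
theorem e_nonneg (i : ι) (x : Λ) (q : ι) (y : Λ) : 0 ≤ e i x q y := by
  unfold e; split_ifs <;> simp

theorem opB (n : ι → Λ → ℤ) (hn : ∀ x, Bl fun q => n q x) (i : ι) (w : Λ)
    (hi : ∀ j, ∑ x, n i x ≤ ∑ x, n j x) :
    ∃ m : ι → Λ → ℤ, (∀ x, Bl fun q => m q x) ∧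
      (∀ q, ∑ x, m q x = ∑ x, n q x + if q = i then 1 else 0) ∧
      (∀ x, ∑ q, m q x = ∑ q, n q x + if x = w then 1 else 0) ∧
      ∑ q, ∑ x, |m q x - n q x| ≤ 3 := by
  by_cases h : ∀ j, n i w ≤ n j w
  · refine ⟨fun q y => n q y + e i w q y, ?_, ?_, ?_, ?_⟩
    · intro x q q'
      have h1 := hn x q q'
      have h2 := h q'
      simp only [e] at *
      split_ifs with h3 h4 h4
      · omega
      · obtain ⟨rfl, rfl⟩ := h3; omega
      · omega
      · omega
    · intro q; rw [sum_add_distrib, e_row]
    · intro x; rw [sum_add_distrib, e_col]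
    · have : ∀ q y, |n q y + e i w q y - n q y| = e i w q y := fun q y => by
        rw [add_sub_cancel_left, abs_of_nonneg (e_nonneg _ _ _ _)]
      simp only [this, e_tot]; norm_num
  · push Not at h
    obtain ⟨j, hj⟩ := h
    have hx : ∃ x, n i x < n j x := by
      by_contra hc
      push Not at hc
      have : ∑ x, n j x < ∑ x, n i x := sum_lt_sum (fun x _ => hc x) ⟨w, mem_univ _, hj⟩
      have := hi j
      omega
    obtain ⟨x, hx⟩ := hx
    have hxw : x ≠ w := by rintro rfl; omega
    have hij : i ≠ j := by rintro rfl; omega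
    refine ⟨fun q y => n q y + e i x q y - e j x q y + e j w q y, ?_, ?_, ?_, ?_⟩
    · intro y q q'
      have h1 := hn y q q'
      have h2 := hn y i q'
      have h3 := hn y q i
      have h4 := hn y j q'
      have h5 := hn y q j
      have h6 := hn y j i
      simp only [e] at *
      by_cases a1 : y = x
      · subst a1
        by_cases b1 : q = i <;> by_cases b2 : q' = i <;> by_cases b3 : q = j <;>
          by_cases b4 : q' = j <;> simp_all <;> omega
      · by_cases a2 : y = w
        · subst a2
          by_cases b3 : q = j <;> by_cases b4 : q' = j <;> simp_all <;> omega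
        · simp_all
    · intro q
      rw [sum_add_distrib, sum_sub_distrib, sum_add_distrib, e_row, e_row, e_row]; ring
    · intro y
      rw [sum_add_distrib, sum_sub_distrib, sum_add_distrib, e_col, e_col, e_col]; ring
    · have : ∀ q y, |n q y + e i x q y - e j x q y + e j w q y - n q y| ≤
          e i x q y + e j x q y + e j w q y := fun q y => by
        have := e_nonneg i x q y
        have := e_nonneg j x q y
        have := e_nonneg j w q y
        rw [abs_le]; constructor <;> omega
      calc _ ≤ ∑ q, ∑ y, (e i x q y + e j x q y + e j w q y) :=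
            sum_le_sum fun q _ => sum_le_sum fun y _ => this q y
        _ = 3 := by simp only [sum_add_distrib, e_tot]; norm_num

theorem opC (n : ι → Λ → ℤ) (hn : ∀ x, Bl fun q => n q x) (i : ι) (w : Λ)
    (hi : ∀ j, ∑ x, n j x ≤ ∑ x, n i x) :
    ∃ m : ι → Λ → ℤ, (∀ x, Bl fun q => m q x) ∧
      (∀ q, ∑ x, m q x = ∑ x, n q x - if q = i then 1 else 0) ∧
      (∀ x, ∑ q, m q x = ∑ q, n q x - if x = w then 1 else 0) ∧
      ∑ q, ∑ x, |m q x - n q x| ≤ 3 := by
  obtain ⟨m, h1, h2, h3, h4⟩ := opB (fun q x => -n q x)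
    (fun x q q' => by have := hn x q' q; simp only at *; omega) i w
    (fun j => by have := hi j; simp only [sum_neg_distrib]; omega)
  refine ⟨fun q x => -m q x, fun x q q' => by have := h1 x q' q; simp only at *; omega,
    fun q => ?_, fun x => ?_, ?_⟩
  · have := h2 q; simp only [sum_neg_distrib] at *; omega
  · have := h3 x; simp only [sum_neg_distrib] at *; omega
  · refine le_trans (le_of_eq ?_) h4
    refine sum_congr rfl fun q _ => sum_congr rfl fun x _ => ?_
    rw [← abs_neg]; congr 1; ring

omit [DecidableEq ι] in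
theorem ex_lt {a b : ι → ℤ} (h : ∑ i, a i < ∑ i, b i) : ∃ i, a i < b i := by
  by_contra hc
  push Not at hc
  exact absurd (sum_le_sum fun i _ => hc i) (not_le.2 h)

omit [DecidableEq ι] in
theorem ex_lt' {a b : ι → ℤ} (h : ∑ i, a i = ∑ i, b i) (hne : a ≠ b) : ∃ i, a i < b i := by
  by_contra hc
  push Not at hc
  exact hne (funext fun i => ((sum_eq_sum_iff_of_le fun i _ => hc i).1 h.symm i (mem_univ _)).symm)

omit [DecidableEq ι] in
/-- a minimal row that has to grow -/
theorem ex_min {a b : ι → ℤ} (ha : Bl a) (hb : Bl b) (h : ∑ i, a i ≤ ∑ i, b i) (hne : a ≠ b) :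
    ∃ i, a i < b i ∧ ∀ j, a i ≤ a j := by
  have h0 : ∃ i, a i < b i := by
    rcases h.lt_or_eq with h | h
    · exact ex_lt h
    · exact ex_lt' h hne
  obtain ⟨i, hi⟩ := h0
  by_cases hm : ∀ j, a i ≤ a j
  · exact ⟨i, hi, hm⟩
  · push Not at hm
    obtain ⟨j, hj⟩ := hm
    refine ⟨j, ?_, fun l => ?_⟩
    · have := hb i j; omega
    · have := ha i l; omega

theorem abs_up {a b : ι → ℤ} {i : ι} (h : a i < b i) :
    ∑ q, |b q - (a q + if q = i then 1 else 0)| = ∑ q, |b q - a q| - 1 := by
  have : ∀ q, |b q - (a q + if q = i then 1 else 0)| = |b q - a q| - if q = i then 1 else 0 := by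
    intro q
    split_ifs with hq
    · subst hq; rw [abs_of_nonneg (by omega), abs_of_nonneg (by omega)]; ring
    · simp
  simp [this, sum_sub_distrib]

theorem abs_down {a b : ι → ℤ} {i : ι} (h : b i < a i) :
    ∑ q, |b q - (a q - if q = i then 1 else 0)| = ∑ q, |b q - a q| - 1 := by
  have : ∀ q, |b q - (a q - if q = i then 1 else 0)| = |b q - a q| - if q = i then 1 else 0 := by
    intro q
    split_ifs with hq
    · subst hq; rw [abs_of_nonpos (by omega), abs_of_nonpos (by omega)]; ring
    · simp
  simp [this, sum_sub_distrib]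

theorem abs_any (a b : ι → ℤ) (i : ι) :
    ∑ q, |b q - (a q - if q = i then 1 else 0)| ≤ ∑ q, |b q - a q| + 1 := by
  have : ∀ q, |b q - (a q - if q = i then 1 else 0)| ≤ |b q - a q| + if q = i then 1 else 0 := by
    intro q
    split_ifs with hq
    · have := le_abs_self (b q - a q)
      have := neg_abs_le (b q - a q)
      rw [abs_le]; constructor <;> omega
    · simp
  refine (sum_le_sum fun q _ => this q).trans ?_
  simp [sum_add_distrib]

omit [DecidableEq ι] [DecidableEq Λ] in
theorem tri (n m l : ι → Λ → ℤ) :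
    ∑ q, ∑ x, |l q x - n q x| ≤ ∑ q, ∑ x, |l q x - m q x| + ∑ q, ∑ x, |m q x - n q x| := by
  simp only [← sum_add_distrib]
  exact sum_le_sum fun q _ => sum_le_sum fun x _ => abs_sub_le _ _ _

/-- distance of the margins -/
def dd (n : ι → Λ → ℤ) (a : ι → ℤ) (Z : Λ → ℤ) : ℤ :=
  ∑ q, |a q - ∑ x, n q x| + ∑ x, |Z x - ∑ q, n q x|

omit [DecidableEq ι] [DecidableEq Λ] in
theorem dd_nonneg (n : ι → Λ → ℤ) (a : ι → ℤ) (Z : Λ → ℤ) : 0 ≤ dd n a Z :=
  add_nonneg (sum_nonneg fun _ _ => abs_nonneg _) (sum_nonneg fun _ _ => abs_nonneg _)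

theorem star_aux (a : ι → ℤ) (Z : Λ → ℤ) (ha : Bl a) (ha0 : ∀ i, 0 ≤ a i) (hZ0 : ∀ x, 0 ≤ Z x)
    (ht : ∑ q, a q = ∑ x, Z x) (μ : ℕ) :
    ∀ n : ι → Λ → ℤ, (∀ x, Bl fun q => n q x) → (Bl fun q => ∑ x, n q x) →
      2 * dd n a Z - (if ∑ q, ∑ x, n q x = ∑ q, a q then 0 else 1) < μ →
      ∃ m : ι → Λ → ℤ, (∀ x, Bl fun q => m q x) ∧ (∀ q, ∑ x, m q x = a q) ∧
        (∀ x, ∑ q, m q x = Z x) ∧
        ∑ q, ∑ x, |m q x - n q x| ≤
          3 * dd n a Z - 3 * (if ∑ q, ∑ x, n q x = ∑ q, a q then 0 else 1) := by
  induction μ with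
  | zero =>
    intro n hn hr hμ
    exfalso
    have h0 := dd_nonneg n a Z
    split_ifs at hμ with h
    · omega
    · have h1 : dd n a Z = 0 := by omega
      have h2 : ∑ q, |a q - ∑ x, n q x| = 0 := by
        have : 0 ≤ ∑ q, |a q - ∑ x, n q x| := sum_nonneg fun _ _ => abs_nonneg _
        have : 0 ≤ ∑ x, |Z x - ∑ q, n q x| := sum_nonneg fun _ _ => abs_nonneg _
        unfold dd at h1; omega
      rw [sum_eq_zero_iff_of_nonneg fun _ _ => abs_nonneg _] at h2
      refine h (sum_congr rfl fun q hq => ?_)
      have := abs_eq_zero.1 (h2 q hq); omega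
  | succ μ ih =>
    intro n hn hr hμ
    have hc : ∑ x, ∑ q, n q x = ∑ q, ∑ x, n q x := sum_comm
    rcases lt_trichotomy (∑ q, ∑ x, n q x) (∑ q, a q) with h | h | h
    · obtain ⟨i, hi, hm⟩ := ex_min hr ha h.le (by rintro rfl; exact lt_irrefl _ h)
      obtain ⟨w, hw⟩ := ex_lt (a := fun x => ∑ q, n q x) (b := Z) (by omega)
      obtain ⟨m, h1, h2, h3, h4⟩ := opB n hn i w hm
      have hd : dd m a Z = dd n a Z - 2 := by
        unfold dd
        simp only [h2, h3]
        rw [abs_up (a := fun q => ∑ x, n q x) hi, abs_up (a := fun x => ∑ q, n q x) hw]; ring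
      obtain ⟨l, l1, l2, l3, l4⟩ := ih m h1 (fun q q' => by
          have := hr q q'; have := hm q'
          simp only [h2] at *
          split_ifs with b1 b2 b2
          · omega
          · subst b1; omega
          · omega
          · omega) (by rw [if_neg h.ne] at hμ; split_ifs <;> omega)
      refine ⟨l, l1, l2, l3, ?_⟩
      have := tri n m l
      rw [if_neg h.ne]
      split_ifs at l4 <;> omega
    · by_cases hne : (fun q => ∑ x, n q x) = a ∧ (fun x => ∑ q, n q x) = Z
      · refine ⟨n, hn, fun q => congrFun hne.1 q, fun x => congrFun hne.2 x, ?_⟩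
        have := dd_nonneg n a Z
        rw [if_pos h]
        simp only [sub_self, abs_zero, sum_const_zero]
        omega
      · have key : ∃ i w, (∀ j, ∑ x, n j x ≤ ∑ x, n i x) ∧
            (a i < ∑ x, n i x ∨ Z w < ∑ q, n q w) := by
          by_cases h1 : (fun q => ∑ x, n q x) = a
          · have h2 : Z ≠ fun x => ∑ q, n q x := fun h2 => hne ⟨h1, h2.symm⟩
            obtain ⟨w, hw⟩ := ex_lt' (a := Z) (b := fun x => ∑ q, n q x) (by omega) h2
            have hne' : (univ : Finset ι).Nonempty := by
              rw [nonempty_iff_ne_empty]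
              intro he
              have := hZ0 w
              simp only [he, sum_empty] at hw
              omega
            obtain ⟨i, -, hi⟩ := exists_max_image univ (fun q => ∑ x, n q x) hne'
            exact ⟨i, w, fun j => hi j (mem_univ _), Or.inr hw⟩
          · obtain ⟨i, hi, hm⟩ := ex_min (a := fun q => -∑ x, n q x) (b := fun q => -a q)
              (fun q q' => by have := hr q' q; simp only at *; omega)
              (fun q q' => by have := ha q' q; simp only at *; omega)
              (by simp only [sum_neg_distrib]; omega)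
              (fun h2 => h1 (funext fun q => neg_injective (congrFun h2 q)))
            have hne' : (univ : Finset Λ).Nonempty := by
              rw [nonempty_iff_ne_empty]
              intro he
              have := ha0 i
              simp only [he, sum_empty] at hi
              omega
            obtain ⟨w, -⟩ := hne'
            exact ⟨i, w, fun j => by have := hm j; omega, Or.inl (by omega)⟩
        obtain ⟨i, w, hm, hw⟩ := key
        obtain ⟨m, h1, h2, h3, h4⟩ := opC n hn i w hm
        have hd : dd m a Z ≤ dd n a Z := by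
          unfold dd
          simp only [h2, h3]
          rcases hw with hw | hw
          · rw [abs_down (a := fun q => ∑ x, n q x) hw]
            have := abs_any (fun x => ∑ q, n q x) Z w
            omega
          · rw [abs_down (a := fun x => ∑ q, n q x) hw]
            have := abs_any (fun q => ∑ x, n q x) a i
            omega
        have hs : ¬∑ q, ∑ x, m q x = ∑ q, a q := by
          simp only [h2, sum_sub_distrib, sum_ite_eq', mem_univ, if_true]; omega
        obtain ⟨l, l1, l2, l3, l4⟩ := ih m h1 (fun q q' => by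
            have := hr q q'; have := hm q
            simp only [h2] at *
            split_ifs with b1 b2 b2
            · omega
            · omega
            · subst b2; omega
            · omega) (by rw [if_pos h] at hμ; rw [if_neg hs]; omega)
        refine ⟨l, l1, l2, l3, ?_⟩
        have := tri n m l
        rw [if_pos h]
        rw [if_neg hs] at l4
        omega
    · obtain ⟨i, hi, hm⟩ := ex_min (a := fun q => -∑ x, n q x) (b := fun q => -a q)
        (fun q q' => by have := hr q' q; simp only at *; omega)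
        (fun q q' => by have := ha q' q; simp only at *; omega)
        (by simp only [sum_neg_distrib]; omega)
        (fun h2 => by
          have : ∑ q, -∑ x, n q x = ∑ q, -a q := sum_congr rfl fun q _ => congrFun h2 q
          simp only [sum_neg_distrib] at this; omega)
      have hm' : ∀ j, ∑ x, n j x ≤ ∑ x, n i x := fun j => by have := hm j; omega
      have hi' : a i < ∑ x, n i x := by omega
      obtain ⟨w, hw⟩ := ex_lt (a := Z) (b := fun x => ∑ q, n q x) (by omega)
      obtain ⟨m, h1, h2, h3, h4⟩ := opC n hn i w hm'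
      have hd : dd m a Z = dd n a Z - 2 := by
        unfold dd
        simp only [h2, h3]
        rw [abs_down (a := fun q => ∑ x, n q x) hi', abs_down (a := fun x => ∑ q, n q x) hw]; ring
      obtain ⟨l, l1, l2, l3, l4⟩ := ih m h1 (fun q q' => by
          have := hr q q'; have := hm' q
          simp only [h2] at *
          split_ifs with b1 b2 b2
          · omega
          · omega
          · subst b2; omega
          · omega) (by rw [if_neg h.ne'] at hμ; split_ifs <;> omega)
      refine ⟨l, l1, l2, l3, ?_⟩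
      have := tri n m l
      rw [if_neg h.ne']
      split_ifs at l4 <;> omega

theorem star (n : ι → Λ → ℤ) (a : ι → ℤ) (Z : Λ → ℤ) (hn : ∀ x, Bl fun q => n q x)
    (hr : Bl fun q => ∑ x, n q x) (ha : Bl a) (ha0 : ∀ i, 0 ≤ a i) (hZ0 : ∀ x, 0 ≤ Z x)
    (ht : ∑ q, a q = ∑ x, Z x) :
    ∃ m : ι → Λ → ℤ, (∀ x, Bl fun q => m q x) ∧ (∀ q, ∑ x, m q x = a q) ∧
      (∀ x, ∑ q, m q x = Z x) ∧ ∑ q, ∑ x, |m q x - n q x| ≤ 3 * dd n a Z := by
  obtain ⟨m, h1, h2, h3, h4⟩ := star_aux a Z ha ha0 hZ0 ht (2 * dd n a Z + 1).toNat n hn hr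
    (by have := dd_nonneg n a Z; split_ifs <;> omega)
  exact ⟨m, h1, h2, h3, by split_ifs at h4 <;> omega⟩

omit [DecidableEq ι] in
theorem Bl.nonneg {a : ι → ℤ} (ha : Bl a) (h : 0 ≤ ∑ q, a q) (i : ι) : 0 ≤ a i := by
  by_contra hc
  have : ∑ q, a q < ∑ _q : ι, (0 : ℤ) :=
    sum_lt_sum (fun q _ => by have := ha q i; omega) ⟨i, mem_univ _, by omega⟩
  simp only [sum_const_zero] at this
  omega

end Vale.Agent.P304.RoundA
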