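import Vale.Agent.P304.RoundA

/-! Matching lemma for the online rounding. -/

namespace Vale.Agent.P304.RoundB

open Finset RoundA

universe u

variable {Λ : Type u}

theorem anc_len {i : ℕ} {l : List Λ} (h : i ≤ l.length) : (anc i l).length = i := by
  simp only [anc, List.length_drop]; omega

theorem anc_self (l : List Λ) : anc l.length l = l := by simp [anc]

theorem anc_cons {i : ℕ} (a : Λ) {l : List Λ} (h : i ≤ l.length) : anc i (a :: l) = anc i l := by
  unfold anc
  rw [List.length_cons, show l.length + 1 - i = (l.length - i) + 1 by omega, List.drop_succ_cons]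

theorem anc_succ {i : ℕ} {l : List Λ} (h : i < l.length) : ∃ a, anc (i + 1) l = a :: anc i l := by
  refine ⟨l[l.length - (i + 1)]'(by omega), ?_⟩
  unfold anc
  rw [List.drop_eq_getElem_cons (by omega), show l.length - (i + 1) + 1 = l.length - i by omega]

variable [Fintype Λ] [DecidableEq Λ]

/-- integer count -/
def C {k : ℕ} (V : Fin k → List Λ) (v : List Λ) : ℤ :=
  ∑ j, if anc v.length (V j) = v then 1 else 0

omit [Fintype Λ] in
theorem C_eq {k : ℕ} (V : Fin k → List Λ) (v : List Λ) :
    C V v = (cnt (fun j i => anc i (V j)) v : ℤ) := by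
  simp [C, cnt]

omit [Fintype Λ] in
theorem C_nil {k : ℕ} (V : Fin k → List Λ) : C V [] = k := by
  simp [C, anc]

theorem C_cons {k L : ℕ} {V : Fin k → List Λ} (hV : ∀ j, (V j).length = L) {v : List Λ}
    (hv : v.length < L) : ∑ a, C V (a :: v) = C V v := by
  unfold C
  rw [sum_comm]
  refine sum_congr rfl fun j _ => ?_
  obtain ⟨b, hb⟩ := anc_succ (l := V j) (i := v.length) (by rw [hV]; exact hv)
  simp only [List.length_cons, hb, List.cons.injEq]
  by_cases h : anc v.length (V j) = v <;> simp [h]

omit [DecidableEq Λ] in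
theorem descend {L : ℕ} (f g : List Λ → ℤ) (hf : ∀ v, v.length < L → ∑ a, f (a :: v) = f v)
    (hg : ∀ v, v.length < L → ∑ a, g (a :: v) = g v) (m : ℕ) :
    ∀ v : List Λ, v.length + m = L → f v < g v → ∃ l : List Λ, l.length = L ∧
      (∀ i, i ≤ v.length → anc i l = anc i v) ∧
      ∀ i, v.length ≤ i → i ≤ L → f (anc i l) < g (anc i l) := by
  induction m with
  | zero =>
    intro v hv h
    refine ⟨v, hv, fun _ _ => rfl, fun i h1 h2 => ?_⟩
    rw [show i = v.length by omega, anc_self]; exact h
  | succ m ih =>
    intro v hv h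
    obtain ⟨a, ha⟩ := ex_lt (a := fun a => f (a :: v)) (b := fun a => g (a :: v))
      (by rw [hf v (by omega), hg v (by omega)]; exact h)
    obtain ⟨l, h1, h2, h3⟩ := ih (a :: v) (by rw [List.length_cons]; omega) ha
    rw [List.length_cons] at h2 h3
    have h4 : ∀ i, i ≤ v.length → anc i l = anc i v := fun i hi => by
      rw [h2 i (by omega), anc_cons a hi]
    refine ⟨l, h1, h4, fun i hi hi' => ?_⟩
    rcases hi.eq_or_lt with rfl | hi
    · rw [h4 _ le_rfl, anc_self]; exact h
    · exact h3 i hi hi'

omit [Fintype Λ] [DecidableEq Λ] in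
theorem top_diff {L : ℕ} (f g : List Λ → ℤ) (h0 : f [] = g []) :
    ∀ v : List Λ, v.length ≤ L → f v ≠ g v →
      ∃ u : List Λ, u.length < L ∧ f u = g u ∧ ∃ a, f (a :: u) ≠ g (a :: u) := by
  intro v
  induction v with
  | nil => intro _ h; exact absurd h0 h
  | cons a v ih =>
    intro hv h
    rw [List.length_cons] at hv
    by_cases h1 : f v = g v
    · exact ⟨v, by omega, h1, a, h⟩
    · exact ih (by omega) h1

omit [Fintype Λ] in
theorem C_update {k : ℕ} (V : Fin k → List Λ) (j : Fin k) (l : List Λ) (v : List Λ) :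
    C (Function.update V j l) v = C V v - (if anc v.length (V j) = v then 1 else 0) +
      if anc v.length l = v then 1 else 0 := by
  unfold C
  rw [← add_sum_erase _ _ (mem_univ j), ← add_sum_erase _ _ (mem_univ j), Function.update_self]
  have : ∑ x ∈ univ.erase j, (if anc v.length (Function.update V j l x) = v then (1 : ℤ) else 0) =
      ∑ x ∈ univ.erase j, (if anc v.length (V x) = v then (1 : ℤ) else 0) :=
    sum_congr rfl fun x hx => by rw [Function.update_of_ne (ne_of_mem_erase hx)]
  rw [this]; ring

/-- level discrepancy -/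
def Δ {k : ℕ} (N : List Λ → ℤ) (V : Fin k → List Λ) (i : ℕ) : ℤ :=
  ∑ v ∈ nodes i, |N v - C V v|

theorem Δ_nonneg {k : ℕ} (N : List Λ → ℤ) (V : Fin k → List Λ) (i : ℕ) : 0 ≤ Δ N V i :=
  sum_nonneg fun _ _ => abs_nonneg _

theorem Δ_same {k : ℕ} (N : List Λ → ℤ) (V : Fin k → List Λ) (j : Fin k) (l : List Λ) (i : ℕ)
    (h : anc i (V j) = anc i l) : Δ N (Function.update V j l) i = Δ N V i := by
  refine sum_congr rfl fun v hv => ?_
  rw [C_update, mem_nodes.1 hv, h, sub_add_cancel]

theorem Δ_move {k : ℕ} (N : List Λ → ℤ) (V : Fin k → List Λ) (j : Fin k) (l : List Λ) (i : ℕ)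
    (hl : i ≤ l.length) (h1 : N (anc i (V j)) < C V (anc i (V j)))
    (h2 : C V (anc i l) < N (anc i l)) : Δ N (Function.update V j l) i + 1 ≤ Δ N V i := by
  have key : ∀ v ∈ nodes i, |N v - C (Function.update V j l) v| +
      (if anc i l = v then 1 else 0) ≤ |N v - C V v| := by
    intro v hv
    rw [C_update, mem_nodes.1 hv]
    split_ifs with a1 a2 a2
    · rw [a1] at h1; rw [a2] at h2; omega
    · rw [a1] at h1
      rw [abs_of_nonpos (by omega), abs_of_nonpos (by omega)]; omega
    · rw [a2] at h2
      rw [abs_of_nonneg (by omega), abs_of_nonneg (by omega)]; omega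
    · simp
  have := sum_le_sum key
  rw [sum_add_distrib, sum_ite_eq, if_pos (mem_nodes.2 (anc_len hl))] at this
  exact this

omit [Fintype Λ] in
theorem chg_step {k : ℕ} (V V' : Fin k → List Λ) (j : Fin k) (l : List Λ) (i : ℕ) :
    (chg (fun j i => anc i (V j)) (fun j i => anc i (V' j)) i : ℤ) ≤
      chg (fun x i => anc i (Function.update V j l x)) (fun j i => anc i (V' j)) i +
        if anc i (V j) = anc i l then 0 else 1 := by
  unfold chg
  split_ifs with h
  · rw [add_zero]
    refine Int.ofNat_le.2 (card_le_card fun x hx => ?_)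
    rw [mem_filter] at hx ⊢
    refine ⟨hx.1, ?_⟩
    show anc i (Function.update V j l x) ≠ anc i (V' x)
    by_cases hj : x = j
    · subst hj; rw [Function.update_self, ← h]; exact hx.2
    · rw [Function.update_of_ne hj]; exact hx.2
  · have : (univ.filter fun x => anc i (V x) ≠ anc i (V' x)) ⊆
        insert j (univ.filter fun x => anc i (Function.update V j l x) ≠ anc i (V' x)) := by
      intro x hx
      rw [mem_insert]
      by_cases hj : x = j
      · exact Or.inl hj
      · rw [mem_filter] at hx ⊢
        rw [Function.update_of_ne hj]; exact Or.inr hx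
    have := (card_le_card this).trans (card_insert_le _ _)
    exact_mod_cast this

theorem matching {k L : ℕ} (N : List Λ → ℤ) (h0 : N [] = k)
    (h1 : ∀ v, v.length < L → ∑ a, N (a :: v) = N v) (hN : ∀ v, v.length ≤ L → 0 ≤ N v) (μ : ℕ) :
    ∀ V : Fin k → List Λ, (∀ j, (V j).length = L) → Δ N V L < μ →
      ∃ V' : Fin k → List Λ, (∀ j, (V' j).length = L) ∧ (∀ v, v.length ≤ L → C V' v = N v) ∧
        ∀ i, i ≤ L → (chg (fun j i => anc i (V j)) (fun j i => anc i (V' j)) i : ℤ) ≤ Δ N V i := by
  induction μ with
  | zero => intro V _ h; have := Δ_nonneg N V L; omega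
  | succ μ ih =>
    intro V hV hμ
    by_cases h : ∀ v, v.length ≤ L → C V v = N v
    · refine ⟨V, hV, h, fun i _ => ?_⟩
      have := Δ_nonneg N V i
      simpa [chg] using this
    · push Not at h
      obtain ⟨v, hv, hne⟩ := h
      obtain ⟨u, hu, he, a, ha⟩ := top_diff (C V) N (by rw [C_nil, h0]) v hv hne
      have hs : ∑ a, C V (a :: u) = ∑ a, N (a :: u) := by rw [C_cons hV hu, h1 u hu, he]
      have hne' : (fun a => C V (a :: u)) ≠ fun a => N (a :: u) := fun h => ha (congrFun h a)
      obtain ⟨b, hb⟩ := ex_lt' hs hne'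
      obtain ⟨c, hc⟩ := ex_lt' hs.symm hne'.symm
      obtain ⟨l, l1, l2, l3⟩ := descend (C V) N (fun v hv => C_cons hV hv) h1 (L - (u.length + 1))
        (b :: u) (by rw [List.length_cons]; omega) hb
      obtain ⟨l', m1, m2, m3⟩ := descend N (C V) h1 (fun v hv => C_cons hV hv) (L - (u.length + 1))
        (c :: u) (by rw [List.length_cons]; omega) hc
      rw [List.length_cons] at l2 l3 m2 m3
      have hj : ∃ j, V j = l' := by
        have h2 := m3 L hu le_rfl
        rw [← m1, anc_self] at h2
        have h3 := hN l' m1.le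
        by_contra hc
        push Not at hc
        have : C V l' = 0 := sum_eq_zero fun j _ => by
          rw [m1, ← hV j, anc_self, if_neg (hc j)]
        omega
      obtain ⟨j, rfl⟩ := hj
      have step : ∀ i, i ≤ L → Δ N (Function.update V j l) i +
          (if i ≤ u.length then 0 else 1) ≤ Δ N V i ∧ (i ≤ u.length → anc i (V j) = anc i l) := by
        intro i hi
        have e1 : i ≤ u.length → anc i (V j) = anc i l := fun h2 => by
          rw [l2 i (by omega), m2 i (by omega), anc_cons _ h2, anc_cons _ h2]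
        refine ⟨?_, e1⟩
        split_ifs with h2
        · rw [Δ_same N V j l i (e1 h2), add_zero]
        · exact Δ_move N V j l i (by omega) (m3 i (by omega) hi) (l3 i (by omega) hi)
      obtain ⟨V', a1, a2, a3⟩ := ih (Function.update V j l) (fun x => by
          by_cases hx : x = j
          · subst hx; rw [Function.update_self, l1]
          · rw [Function.update_of_ne hx, hV]) (by
          have := (step L le_rfl).1
          rw [if_neg (by omega)] at this
          omega)
      refine ⟨V', a1, a2, fun i hi => ?_⟩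
      have b1 := chg_step V V' j l i
      have b2 := a3 i hi
      obtain ⟨b3, b4⟩ := step i hi
      by_cases h2 : i ≤ u.length
      · rw [if_pos (b4 h2)] at b1
        rw [if_pos h2] at b3
        omega
      · rw [if_neg h2] at b3
        split_ifs at b1 <;> omega

end Vale.Agent.P304.RoundB
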