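import Vale.Agent.P304.Base

/-! Lazy tracking of a posterior probability. -/

namespace Vale.Agent.P304

universe u

namespace Track

/-- the logarithmic potential with minimum at `m` -/
noncomputable def pot (K c m a : ℝ) : ℝ :=
  K * (a - m - (m + c) * (Real.log (a + c) - Real.log (m + c)))

lemma log_sub_mul_le {u v : ℝ} (hu : 0 < u) (hv : 0 < v) : v * (Real.log u - Real.log v) ≤ u - v := by
  have h := Real.log_le_sub_one_of_pos (div_pos hu hv)
  rw [Real.log_div hu.ne' hv.ne'] at h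
  calc _ ≤ v * (u / v - 1) := by gcongr
    _ = _ := by field_simp

lemma pot_nonneg {K c m a : ℝ} (hK : 0 ≤ K) (ha : 0 < a + c) (hm : 0 < m + c) : 0 ≤ pot K c m a :=
  mul_nonneg hK (by linarith [log_sub_mul_le ha hm])

lemma pot_le {η w m a : ℝ} (hw : 0 < w) (hwη : w ≤ η) (ha : 0 ≤ a) (ha4 : a ≤ 4) (hm : 0 ≤ m)
    (hm4 : m ≤ 7 / 2) :
    pot (6 / η) (6 / η * w / 4) m a ≤ 84 / η * (1 + Real.log (η / w)) := by
  have hη : 0 < η := by linarith
  have hL : 0 ≤ Real.log (η / w) := Real.log_nonneg ((one_le_div hw).2 hwη)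
  obtain ⟨c, hc⟩ : ∃ c, c = 6 / η * w / 4 := ⟨_, rfl⟩
  rw [← hc]
  have hc0 : 0 < c := by rw [hc]; positivity
  have hc1 : c ≤ 3 / 2 := by
    have : w / η ≤ 1 := (div_le_one hη).2 hwη
    have e : c = 3 / 2 * (w / η) := by rw [hc]; ring
    linarith
  have h1 : Real.log (m + c) ≤ 2 + Real.log c + Real.log (η / w) := by
    have e : (2 : ℝ) ^ 2 * c * (η / w) = 6 := by rw [hc]; field_simp; norm_num
    have h2 : Real.log (m + c) ≤ Real.log (2 ^ 2 * c * (η / w)) :=
      Real.log_le_log (by linarith) (by linarith)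
    rw [Real.log_mul (by positivity) (by positivity), Real.log_mul (by positivity) hc0.ne',
      Real.log_pow] at h2
    have := Real.log_le_sub_one_of_pos (show (0 : ℝ) < 2 by norm_num)
    push_cast at h2
    linarith
  have h2 : Real.log c ≤ Real.log (a + c) := Real.log_le_log hc0 (by linarith)
  have h3 : (m + c) * (Real.log (m + c) - Real.log (a + c)) ≤ 5 * (2 + Real.log (η / w)) :=
    (mul_le_mul_of_nonneg_left (show _ ≤ 2 + Real.log (η / w) by linarith) (by linarith)).trans
      (mul_le_mul_of_nonneg_right (by linarith) (by linarith))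
  calc pot (6 / η) c m a ≤ 6 / η * (14 * (1 + Real.log (η / w))) :=
        mul_le_mul_of_nonneg_left (by linarith) (by positivity)
    _ = _ := by ring

/-- the potential, affine in the posterior -/
noncomputable def phi (lam η w a y : ℝ) : ℝ :=
  y * pot (6 / η) (6 / η * w / 4) (w / 2 + (lam + η / 2)) a
    + (1 - y) * pot (6 / η) (6 / η * w / 4) (w / 2) a

lemma step {lam η w a y : ℝ} (h2 : 2 ≤ lam) (h3 : lam + η ≤ 3) (hw : 0 < w) (hwη : w ≤ η)
    (ha : 0 ≤ a) (hy : 0 ≤ y) :
    phi lam η w (max (lam * y) (min a (w + (lam + η) * y))) y - phi lam η w a y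
      + |max (lam * y) (min a (w + (lam + η) * y)) - a| ≤ 0 := by
  have hη : 0 < η := by linarith
  obtain ⟨K, hK⟩ : ∃ K, K = 6 / η := ⟨_, rfl⟩
  have hKη : K * η = 6 := by rw [hK]; field_simp
  have hK6 : 6 ≤ K := by rw [hK, le_div_iff₀ hη]; linarith
  have hKw : 6 * w ≤ K * w := by gcongr
  have hly : 0 ≤ lam * y := by positivity
  have key : ∀ a' : ℝ, 0 ≤ a' →
      (a' + K * w / 4) * |a' - a| ≤ K * (a - a') * (a' - w / 2 - (lam + η / 2) * y) →
      phi lam η w a' y - phi lam η w a y + |a' - a| ≤ 0 := by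
    intro a' ha' h
    have hv : 0 < a' + K * w / 4 := by linarith
    have h1 := log_sub_mul_le (show 0 < a + K * w / 4 by linarith) hv
    have e : phi lam η w a' y - phi lam η w a y = K * (a' - a) + K * (K * w / 4 + w / 2 +
        (lam + η / 2) * y) * (Real.log (a + K * w / 4) - Real.log (a' + K * w / 4)) := by
      simp only [phi, pot, ← hK]
      ring
    rw [e]
    have hM : 0 ≤ K * (K * w / 4 + w / 2 + (lam + η / 2) * y) := by positivity
    have h4 := mul_le_mul_of_nonneg_left h1 hM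
    refine nonpos_of_mul_nonpos_right ?_ hv
    nlinarith
  have hηy : 0 ≤ η * y := by positivity
  rcases le_total a (lam * y) with h | h
  · rw [max_eq_left ((min_le_left _ _).trans h)]
    refine key _ hly ?_
    rw [abs_of_nonneg (by linarith)]
    have : lam * y + K * w / 4 ≤ K * (w / 2 + η / 2 * y) := by nlinarith
    nlinarith
  · rcases le_total a (w + (lam + η) * y) with h' | h'
    · rw [min_eq_left h', max_eq_right h]
      simp
    · rw [min_eq_right h', max_eq_right (by nlinarith)]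
      refine key _ (by nlinarith) ?_
      rw [abs_of_nonpos (by linarith)]
      have : w + (lam + η) * y + K * w / 4 ≤ K * (w / 2 + η / 2 * y) := by nlinarith
      nlinarith

/-- the lazy tracker -/
noncomputable def trk {X : Type u} (lam η w : ℝ) (y : List X → ℝ) : List X → ℝ
  | [] => w / 2 + (lam + η / 2)
  | r :: h => max (lam * y (r :: h)) (min (trk lam η w y h) (w + (lam + η) * y (r :: h)))

end Track

open Track in
theorem Bay.track {X Ω : Type u} [Fintype Ω] {k : ℕ} (B : Bay X Ω k) (I : List X → Ω → ℝ)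
    (hI : ∀ h ω, I h ω = 0 ∨ I h ω = 1) (h0 : ∀ ω, I [] ω = 1) {lam η w : ℝ} (h2 : 2 ≤ lam)
    (h3 : lam + η ≤ 3) (hw : 0 < w) (hwη : w ≤ η) :
    ∃ a : List X → ℝ,
      (∀ ω t, lam * B.cE (B.hist ω t) (I (B.hist ω t)) ≤ a (B.hist ω t) ∧
        a (B.hist ω t) ≤ w + (lam + η) * B.cE (B.hist ω t) (I (B.hist ω t))) ∧
      (B.Ex fun ω t => |a (B.hist ω (t + 1)) - a (B.hist ω t)|) ≤
        84 / η * (1 + Real.log (η / w)) *
          B.Ex fun ω t => |I (B.hist ω (t + 1)) ω - I (B.hist ω t) ω| := by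
  have hη : 0 < η := by linarith
  obtain ⟨y, hy⟩ : ∃ y : List X → ℝ, y = fun h => B.cE h (I h) := ⟨_, rfl⟩
  have hy' : ∀ h, B.cE h (I h) = y h := fun h => by rw [hy]
  have hWy : ∀ ω t, B.W (B.hist ω t) (I (B.hist ω t)) =
      y (B.hist ω t) * B.W (B.hist ω t) fun _ => 1 := fun ω t => by
    rw [← hy', Bay.cE, div_mul_cancel₀ _ (B.W_one_pos ω t).ne']
  have hI' : ∀ h ω, 0 ≤ I h ω ∧ I h ω ≤ 1 := fun h ω => by
    rcases hI h ω with e | e <;> simp [e]
  have hy01 : ∀ ω t, 0 ≤ y (B.hist ω t) ∧ y (B.hist ω t) ≤ 1 := fun ω t => by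
    have p := B.W_one_pos ω t
    have a1 := B.W_mono (h := B.hist ω t) (f := fun _ => 0) fun ω' _ => (hI' (B.hist ω t) ω').1
    have a2 := B.W_mono (h := B.hist ω t) (g := fun _ => 1) fun ω' _ => (hI' (B.hist ω t) ω').2
    rw [B.W_const] at a1
    rw [hWy] at a1 a2
    exact ⟨le_of_mul_le_mul_right a1 p, le_of_mul_le_mul_right (by linarith) p⟩
  simp only [hy']
  have hb : ∀ ω t, lam * y (B.hist ω t) ≤ trk lam η w y (B.hist ω t) ∧
      trk lam η w y (B.hist ω t) ≤ w + (lam + η) * y (B.hist ω t) := by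
    intro ω t
    cases t with
    | zero =>
      have : y [] = 1 := by
        rw [← hy', Bay.cE, show I [] = fun _ => 1 from funext h0]
        exact div_self (B.W_one_pos ω 0).ne'
      simp only [Bay.hist, trk, this]
      constructor <;> linarith
    | succ t =>
      have := (hy01 ω (t + 1)).1
      simp only [Bay.hist, trk] at this ⊢
      exact ⟨le_max_left _ _, max_le (by nlinarith) (min_le_right _ _)⟩
  have hb' : ∀ ω t, 0 ≤ trk lam η w y (B.hist ω t) ∧ trk lam η w y (B.hist ω t) ≤ 4 := by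
    intro ω t
    have a1 := hb ω t
    have a2 := hy01 ω t
    constructor <;> nlinarith [a1.1, a1.2, a2.1, a2.2]
  refine ⟨trk lam η w y, hb, ?_⟩
  generalize hC : 84 / η * (1 + Real.log (η / w)) = C
  have hp : ∀ ω t m, 0 ≤ m → m ≤ 7 / 2 →
      0 ≤ pot (6 / η) (6 / η * w / 4) m (trk lam η w y (B.hist ω t)) ∧
      pot (6 / η) (6 / η * w / 4) m (trk lam η w y (B.hist ω t)) ≤ C := fun ω t m m0 m1 =>
    ⟨pot_nonneg (by positivity) (add_pos_of_nonneg_of_pos (hb' ω t).1 (by positivity))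
      (by positivity), hC ▸ pot_le hw hwη (hb' ω t).1 (hb' ω t).2 m0 m1⟩
  have hp1 := fun ω t => hp ω t (w / 2 + (lam + η / 2)) (by positivity) (by linarith)
  have hp0 := fun ω t => hp ω t (w / 2) (by positivity) (by linarith)
  have t1 := B.Ex_tele (fun ω t => phi lam η w (trk lam η w y (B.hist ω t)) (I (B.hist ω t) ω))
    (fun ω => by simp [Bay.hist, trk, h0, phi, pot])
    fun ω t => add_nonneg (mul_nonneg (hI' _ _).1 (hp1 ω t).1)
      (mul_nonneg (sub_nonneg.2 (hI' _ _).2) (hp0 ω t).1)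
  have t2 : (B.Ex fun ω t =>
      phi lam η w (trk lam η w y (B.hist ω (t + 1))) (I (B.hist ω (t + 1)) ω)
        - phi lam η w (trk lam η w y (B.hist ω t)) (I (B.hist ω (t + 1)) ω)
        + |trk lam η w y (B.hist ω (t + 1)) - trk lam η w y (B.hist ω t)|) ≤ 0 := by
    rw [B.Ex_eq]
    refine Finset.sum_nonpos fun t _ => ?_
    refine (B.tower (t + 1) (fun h ω => phi lam η w (trk lam η w y h) (I h ω)
        - phi lam η w (trk lam η w y h.tail) (I h ω) + |trk lam η w y h - trk lam η w y h.tail|)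
      (fun _ _ => 0) fun ω => ?_).trans (by simp)
    have s := step h2 h3 hw hwη (hb' ω t).1 (hy01 ω (t + 1)).1
    have p := B.W_one_pos ω (t + 1)
    have e := hWy ω (t + 1)
    change phi lam η w (trk lam η w y (B.hist ω (t + 1))) _ - _ +
      |trk lam η w y (B.hist ω (t + 1)) - _| ≤ 0 at s
    change B.W _ (fun ω' => phi lam η w _ _ - phi lam η w (trk lam η w y (B.hist ω t)) _ +
      |_ - trk lam η w y (B.hist ω t)|) ≤ _
    generalize B.hist ω (t + 1) = h at *
    simp only [phi] at s ⊢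
    simp only [mul_comm (I h _), mul_comm (1 - I h _), B.W_add, B.W_sub, B.W_mul]
    rw [B.W_const h |_|, B.W_const h 0, e]
    nlinarith [mul_le_mul_of_nonneg_right s p.le]
  have t3 : (B.Ex fun ω t => phi lam η w (trk lam η w y (B.hist ω t)) (I (B.hist ω (t + 1)) ω)
      - phi lam η w (trk lam η w y (B.hist ω t)) (I (B.hist ω t) ω)) ≤
      C * B.Ex fun ω t => |I (B.hist ω (t + 1)) ω - I (B.hist ω t) ω| := by
    rw [← B.Ex_mul]
    refine B.Ex_mono fun ω t => ?_
    have a1 := hp1 ω t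
    have a0 := hp0 ω t
    simp only [phi]
    rcases hI (B.hist ω (t + 1)) ω with e | e <;> rcases hI (B.hist ω t) ω with e' | e' <;>
      simp only [e, e'] <;> norm_num <;> linarith [a1.1, a1.2, a0.1, a0.2]
  have t4 := add_le_add t2 t3
  rw [← B.Ex_add, zero_add] at t4
  refine le_trans ?_ t4
  refine (le_add_of_nonneg_left t1).trans ?_
  rw [← B.Ex_add]
  exact B.Ex_mono fun ω t => le_of_eq (by ring)

end Vale.Agent.P304
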